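import Vale.Agent.P014Y.C.Cg.St
import Vale.Agent.P014Y.C.As.Id2

/-!
# P014 Y, C, block CG: the local character at `v`, invariance and the terms of the series
-/

set_option linter.unusedSectionVars false

open NumberField Module Finset Ideal
open scoped Classical

noncomputable section

namespace Vale.Agent.P014Y.C.Cg.Ox

open As As.Fo As.Bd

variable {K : Type} [Field K] [NumberField K] {ι : ℂ →+* ℂ_[3]} {J : K →+* ℂ}
  {M : Type} [Field M] [NumberField M] [Algebra K M] {k : ℕ} {f F : Ideal (𝓞 M)}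
  {a : Ideal (𝓞 M) → ℂ}

theorem ex_ne {A : Ideal (𝓞 M)} (h : A ≠ ⊥) (x : 𝓞 M) : ∃ y, y ≠ 0 ∧ y - x ∈ A := by
  by_cases e : x = 0
  · obtain ⟨t, a, b⟩ := Submodule.exists_mem_ne_zero_of_ne_bot h
    exact ⟨t, b, by simpa [e] using a⟩
  · exact ⟨x, e, by simp⟩

theorem jn_ne {x : M} (h : x ≠ 0) : J (Algebra.norm K x) ≠ 0 := by
  have := As.fd K M
  rwa [map_ne_zero, Algebra.norm_ne_zero_iff]

theorem lc_cop (h : Lc ι J k f F a) (pf : Pv ι J f) : f ⊔ F = ⊤ := by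
  by_contra n
  obtain ⟨P, m, l⟩ := exists_le_maximal _ n
  obtain ⟨s, s1, s2⟩ := pf
  exact (h.av P m (dvd_iff_le.2 (le_sup_right.trans l))).2 ⟨s, s1, l (mem_sup_left s2)⟩

theorem sup_congr {x y : 𝓞 M} {A : Ideal (𝓞 M)} (h : x - y ∈ A) :
    span {x} ⊔ A = span {y} ⊔ A := by
  have k : ∀ x y : 𝓞 M, x - y ∈ A → span {x} ⊔ A ≤ span {y} ⊔ A := fun x y h =>
    sup_le ((span_singleton_le_iff_mem _).2 (by
      simpa using add_mem (mem_sup_right (S := span {y}) h)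
        (mem_sup_left (mem_span_singleton_self y)))) le_sup_right
  exact le_antisymm (k x y h) (k y x (by simpa using neg_mem h))

/-- **the local character** -/
theorem omx (pf : Pv ι J f) (h : Lc ι J k f F a) : ∃ ω : 𝓞 M → ℂ, Om F ω ∧
    ∀ x : 𝓞 M, x ≠ 0 → x - 1 ∈ f → ω x = a (span {x}) * J (Algebra.norm K (x : M)) ^ k := by
  have c := lc_cop h pf
  have cc : IsCoprime f F := isCoprime_iff_sup_eq.2 c
  have n0 : f * F ≠ ⊥ := mul_ne_zero (pv_ne pf) h.ne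
  have mem : ∀ t, t ∈ f → t ∈ F → t ∈ f * F := fun t a b => by
    rw [mul_eq_inf_of_isCoprime cc]
    exact ⟨a, b⟩
  let A : 𝓞 M → ℂ := fun x => a (span {x}) * J (Algebra.norm K (x : M)) ^ k
  have nz : ∀ x : 𝓞 M, x ≠ 0 → J (Algebra.norm K (x : M)) ≠ 0 := fun x hx =>
    jn_ne (RingOfIntegers.coe_ne_zero_iff.2 hx)
  have Am : ∀ x y, A (x * y) = A x * A y := fun x y => by
    simp only [A, ← span_singleton_mul_span_singleton, h.hc.mul,
      RingOfIntegers.coe_eq_algebraMap, map_mul]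
    ring
  have A1 : ∀ x, x ≠ 0 → x - 1 ∈ f * F → A x = 1 := fun x x0 hx => by
    simp only [A, h.hc.prn x x0 hx, ← mul_pow, inv_mul_cancel₀ (nz x x0), one_pow]
  have A0 : ∀ x, x ≠ 0 → (A x = 0 ↔ span {x} ⊔ f * F ≠ ⊤) := fun x x0 => by
    simp only [A, mul_eq_zero, pow_eq_zero_iff', nz x x0, false_and, or_false, h.hc.zero,
      span_singleton_eq_bot, x0, false_or]
  have key : ∀ x y, x ≠ 0 → y ≠ 0 → x - y ∈ f * F → A x = A y := fun x y x0 y0 e => by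
    by_cases t : span {x} ⊔ f * F = ⊤
    · obtain ⟨u, hu, w, hw, s⟩ := Submodule.mem_sup.1 ((eq_top_iff_one _).1 t)
      obtain ⟨z₀, rfl⟩ := mem_span_singleton'.1 hu
      obtain ⟨z, z0, hz⟩ := ex_ne n0 z₀
      have e1 : z * x - 1 ∈ f * F := by
        have : z * x - 1 = (z - z₀) * x - w := by linear_combination s
        exact this ▸ sub_mem (mul_mem_right _ _ hz) hw
      have e2 : z * y - 1 ∈ f * F := by
        have : z * y - 1 = (z * x - 1) - z * (x - y) := by ring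
        exact this ▸ sub_mem e1 (mul_mem_left _ _ e)
      have k1 := A1 _ (mul_ne_zero z0 x0) e1
      have k2 := A1 _ (mul_ne_zero z0 y0) e2
      rw [Am] at k1 k2
      exact mul_left_cancel₀ (left_ne_zero_of_mul_eq_one k1) (k1.trans k2.symm)
    · rw [(A0 x x0).2 t, (A0 y y0).2 (sup_congr e ▸ t)]
  have lf : ∀ x : 𝓞 M, ∃ y, y ≠ 0 ∧ y - 1 ∈ f ∧ y - x ∈ F := fun x => by
    obtain ⟨u, hu, w, hw, s⟩ := Submodule.mem_sup.1 ((eq_top_iff_one _).1 c)
    obtain ⟨y, y0, hy⟩ := ex_ne n0 (x * u + w)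
    refine ⟨y, y0, ?_, ?_⟩
    · have : y - 1 = (y - (x * u + w)) + (x - 1) * u := by linear_combination s
      exact this ▸ add_mem (mul_le_left hy) (mul_mem_left _ _ hu)
    · have : y - x = (y - (x * u + w)) + (1 - x) * w := by linear_combination x * s
      exact this ▸ add_mem (mul_le_right hy) (mul_mem_left _ _ hw)
  choose L L0 L1 L2 using lf
  have ev : ∀ x y, y ≠ 0 → y - 1 ∈ f → y - x ∈ F → A (L x) = A y := fun x y y0 y1 y2 =>
    key _ _ (L0 x) y0 (mem _ (by simpa using sub_mem (L1 x) y1) (by simpa using sub_mem (L2 x) y2))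
  refine ⟨fun x => A (L x), ⟨?_, fun x y => ?_, fun x y e => ?_, fun x => ?_, ?_,
    fun P F' m e => ?_⟩, fun x x0 hx => ev x x x0 hx (by simp)⟩
  · rw [ev 1 1 one_ne_zero (by simp) (by simp), A1 1 one_ne_zero (by simp)]
  · rw [← Am]
    refine ev _ _ (mul_ne_zero (L0 x) (L0 y)) (one_mul' (L1 x) (L1 y)) ?_
    have : L x * L y - x * y = (L x - x) * L y + x * (L y - y) := by ring
    exact this ▸ add_mem (mul_mem_right _ _ (L2 x)) (mul_mem_left _ _ (L2 y))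
  · exact (ev y _ (L0 x) (L1 x) (by simpa using add_mem (L2 x) e)).symm
  · have e : span {L x} ⊔ f = ⊤ := by simpa using sup_congr (L1 x)
    rw [A0 _ (L0 x), ← sup_congr (L2 x), not_iff_not]
    exact ⟨fun t => top_unique (t.ge.trans (sup_le_sup_left mul_le_right _)), fun t =>
      isCoprime_iff_sup_eq.1 ((isCoprime_iff_sup_eq.2 e).mul_right (isCoprime_iff_sup_eq.2 t))⟩
  · obtain ⟨j, hj⟩ := h.mu
    exact ⟨j, fun x => (hj _ (L1 x)).imp_left fun t => by simp [A, t]⟩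
  · obtain ⟨x, x1, x2, x3⟩ := h.pm P F' m e
    have x0 : x ≠ 0 := by
      rintro rfl
      exact x2 (zero_mem _)
    refine ⟨x, mul_le_right x1, x2, fun t => x3 ?_⟩
    rw [ev x x x0 (mul_le_left x1) (by simp)] at t
    rw [inv_pow]
    exact eq_inv_of_mul_eq_one_left t

theorem om_le {ω : 𝓞 M → ℂ} (h : Om F ω) (x : 𝓞 M) : ‖ι (ω x)⁻¹‖ ≤ 1 := by
  obtain ⟨j, hj⟩ := h.mu
  rcases hj x with t | t
  · simp [t]
  · have := congrArg (fun z => ‖ι z‖) t
    simp only [map_pow, norm_pow, map_one, norm_one] at this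
    rw [map_inv₀, norm_inv, (pow_eq_one_iff_of_nonneg (norm_nonneg _) (by positivity)).1 this,
      inv_one]

/-- invariance of the Fourier transform -/
theorem iv {ψ : AddChar K ℂ} (p : Ps ι J ψ) {y₀ : M} (d : ∀ x, Fd ι J 0 (y₀ * x) ↔ Vi ι J x)
    {m n : ℕ} [Fintype (𝓞 M ⧸ Qm ι J M m)] (r : 𝓞 M ⧸ Qm ι J M m → 𝓞 M)
    (hr : ∀ a, Ideal.Quotient.mk _ (r a) = a) (G : 𝓞 M → ℂ)
    (G1 : ∀ x y, x - y ∈ Qm ι J M m → G x = G y)
    (G2 : ∀ u : (𝓞 M)ˣ, (u : 𝓞 M) - 1 ∈ f → ∀ x,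
      G x = J (Algebra.norm K ((u : 𝓞 M) : M)) ^ k * G (u * x)) :
    Iv ι J f ψ m n (fun i => y₀ * r i) k fun i => G (r i) := fun u hu x => by
  unfold hv
  rw [mul_left_comm, vi_unit]
  split_ifs with t
  · rw [← mul_div_assoc, mul_sum]
    congr 1
    refine Fintype.sum_equiv (Units.map (Ideal.Quotient.mk (Qm ι J M m)).toMonoidHom u).mulLeft
      _ _ fun i => ?_
    obtain ⟨q, q1, q2⟩ : ∃ q ∈ Qm ι J M m, r (Ideal.Quotient.mk _ (u : 𝓞 M) * i) = u * r i + q :=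
      ⟨_, Ideal.Quotient.eq.1 (by rw [hr, map_mul, hr]), (add_sub_cancel _ _).symm⟩
    have e : ch ψ y₀ x q = 1 := (ch_triv p d _).2 (fun y hy => by
      have := Vi_mul t (mem_Q.1 hy)
      rwa [show 3 ^ m * x * ((y : M) / 3 ^ m) = x * y by field_simp] at this) q q1
    show G (r i) * ψ (-Algebra.trace K M (((u : 𝓞 M) : M) * x * (y₀ * r i))) =
      _ * (G (r (Ideal.Quotient.mk _ (u : 𝓞 M) * i)) *
      ch ψ y₀ x (r (Ideal.Quotient.mk _ (u : 𝓞 M) * i)))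
    rw [q2, ch_add, e, mul_one, G1 (u * r i + q) (u * r i) (by simpa using q1), G2 u hu (r i),
      mul_assoc, ch]
    congr 5
    simp only [RingOfIntegers.coe_eq_algebraMap, map_mul]
    ring
  · simp

variable {I B R : Ideal (𝓞 M)} {x : M} {m : ℕ}

theorem three_mem : (3 : 𝓞 M) ^ m ∈ Qm ι J M m := As.Lc.two_mem m

theorem qm_ne : Qm ι J M m ≠ ⊥ := fun q =>
  pow_ne_zero m (by norm_num : (3 : 𝓞 M) ≠ 0) (mem_bot.1 (q ▸ three_mem))

theorem qm_cop (h : B ⊔ span {3} = ⊤) (hB : Pv ι J B → B ⊔ Qm ι J M 1 = ⊤)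
    (hQ : Qm ι J M m = Qm ι J M 1 ^ m) : IsCoprime (Qm ι J M m) B :=
  hQ ▸ (isCoprime_iff_sup_eq.2 (hB (Al.Gx.pv_two h))).symm.pow_left

theorem vi_iff (h : E f x (I * B) (Qm ι J M m)) (cp : IsCoprime (Qm ι J M m) B) :
    (∀ y ∈ R, Vi ι J (x * y)) ↔ Qm ι J M m ∣ I * R := by
  obtain ⟨y, z, -, -, -, z0, e, h⟩ := h
  have z1 : (z : M) ≠ 0 := RingOfIntegers.coe_ne_zero_iff.2 z0
  have k : ∀ u v : 𝓞 M, y * u = z * v → x * u = v := fun u v a => mul_left_cancel₀ z1 (by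
    rw [← mul_assoc, mul_comm _ x, e]
    exact_mod_cast congrArg (algebraMap (𝓞 M) M) a)
  refine ⟨fun a => cp.dvd_of_dvd_mul_left (dvd_iff_le.2 ?_), fun ⟨R', a⟩ t ht => ?_⟩
  · rw [← mul_assoc, mul_comm B]
    refine mul_le.2 fun u hu t ht => ?_
    obtain ⟨q, hq, b⟩ := mem_span_singleton_mul.1 (h ▸ mem_span_singleton_mul.2 ⟨u, hu, rfl⟩)
    show Vi ι J (((u * t : 𝓞 M) : M) / 3 ^ m)
    rw [show ((u * t : 𝓞 M) : M) = u * t from map_mul _ _ _, ← k q u b,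
      show x * q * t / 3 ^ m = x * t * (q / 3 ^ m) by ring]
    exact Vi_mul (a t ht) hq
  · have : span {y} * R = span {z} * (B * R') :=
      mul_left_cancel₀ (a := Qm ι J M m) qm_ne
        (by rw [← mul_assoc, mul_comm _ (span {y}), ← h, mul_assoc, mul_right_comm, a]; ring)
    obtain ⟨q, -, b⟩ := mem_span_singleton_mul.1 (this ▸ mem_span_singleton_mul.2 ⟨t, ht, rfl⟩)
    rw [k t q b.symm]
    exact Vi_of ι J q

theorem vi_lev (h : E f x (I * B) (Qm ι J M m)) (cp : IsCoprime (Qm ι J M m) B) :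
    Vi ι J (3 ^ m * x) := by
  have := (vi_iff h cp).2 (dvd_mul_left _ I) _ three_mem
  rwa [show (((3 : 𝓞 M) ^ m : 𝓞 M) : M) = 3 ^ m from rfl, mul_comm] at this

/-- the value of the local character: `e` generates `R` up to `q` and `Qm = R * Q'` -/
theorem om_val {ω : 𝓞 M → ℂ} (hm : ∀ I I', a (I * I') = a I * a I')
    (hω : ∀ x : 𝓞 M, x ≠ 0 → x - 1 ∈ f → ω x = a (span {x}) * J (Algebra.norm K (x : M)) ^ k)
    {Q' q : Ideal (𝓞 M)} (hQ : Qm ι J M m = R * Q') (h : E f x (Q' * I * B) (Qm ι J M m))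
    {e : 𝓞 M} (e0 : e ≠ 0) (e1 : e - 1 ∈ f) (e2 : span {e} = R * q) :
    ∃ x' : 𝓞 M, (x' : M) = x * e ∧ ω x' = a I * a B * a q *
      (J (Algebra.norm K x) ^ k * J (Algebra.norm K (e : M)) ^ k) := by
  obtain ⟨y, z, y1, z1, y0, z0, s, h⟩ := h
  have Q0 : Q' ≠ ⊥ := right_ne_zero_of_mul (hQ ▸ qm_ne)
  have t : span {y * e} = span {z} * (I * B * q) := by
    refine mul_left_cancel₀ Q0 ?_
    rw [← span_singleton_mul_span_singleton, e2]
    calc _ = span {y} * (R * Q') * q := by ring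
      _ = _ := by rw [← hQ, ← h]; ring
  obtain ⟨x', -, b⟩ := mem_span_singleton_mul.1 (t ▸ mem_span_singleton_self (y * e))
  have z2 : (z : M) ≠ 0 := RingOfIntegers.coe_ne_zero_iff.2 z0
  have c : (x' : M) = x * e := mul_left_cancel₀ z2 (by
    rw [← mul_assoc, mul_comm _ x, s]
    exact_mod_cast congrArg (algebraMap (𝓞 M) M) b)
  have x0 : x' ≠ 0 := right_ne_zero_of_mul (b ▸ mul_ne_zero y0 e0)
  have x1 : x' - 1 ∈ f := by
    have : x' - 1 = (y * e - 1) - x' * (z - 1) := by linear_combination b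
    exact this ▸ sub_mem (one_mul' y1 e1) (mul_mem_left _ _ z1)
  have x2 : span {x'} = I * B * q := mul_left_cancel₀ (span_singleton_eq_bot.not.2 z0)
    (by rw [span_singleton_mul_span_singleton, b, t])
  exact ⟨x', c, by rw [hω x' x0 x1, x2, hm, hm, c, map_mul, map_mul, mul_pow]⟩

end Vale.Agent.P014Y.C.Cg.Ox
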