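import Vale.Agent.P014Y.C.Cg.StB
import Vale.Agent.P014Y.C.Cg.Omx

/-!
# P014 Y, C, block CG: the bound for characters ramified at `v` (row BNDR)
-/

set_option linter.unusedSectionVars false

open NumberField Module Finset Ideal
open scoped Classical

noncomputable section

namespace Vale.Agent.P014Y.C.Cg

open As As.Fo As.Bd Ox Al.Gx

theorem bndr0 (hI : IDL2) (hD : DUA) (hH : HCN) (hV : VAL) (hQ : VAQ) (hG : GEN) (hF : FTW)
    {K : Type} [Field K] [NumberField K] {ι : ℂ →+* ℂ_[3]} {J : K →+* ℂ} {Ω : ℝ}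
    (hB : Base ι J Ω) {M : Type} [Field M] [NumberField M] [Algebra K M] {n : ℕ}
    {b : Basis (Fin n) K M} (hb : Vb ι J b) {c : Ideal (𝓞 M)} {l : ℕ} (hc : Sm c l)
    {k : ℕ} {f F : Ideal (𝓞 M)} {a u : Ideal (𝓞 M) → ℂ} (hk : 3 ≤ k) (hf : Pv ι J f)
    (hl : f ⊔ span {(l : 𝓞 M)} = ⊤) (hw : ∃ w : Ideal (𝓞 M), w.IsMaximal ∧ f ≤ w ∧ 3 ∉ w)
    (ha : Lc ι J k f F a) (hu : Ry f u) (u1 : ∀ I, ‖ι (u I)‖ ≤ 1) :
    ∃ i : ℕ, 0 < i ∧ i ≤ 2 * Units.torsionOrder M ∧ (TF f →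
      (∀ u : (𝓞 M)ˣ, (u : 𝓞 M) - 1 ∈ f → Algebra.norm K ((u : 𝓞 M) : M) = 1) → i = 1) ∧
      ‖(i : ℂ_[3])‖ * (sc Ω (dv ι J b * ‖(absNorm F : ℂ_[3])‖) n k *
        ‖ι (∑' I, a I * (u I - l * a c * u (c * I)))‖) ≤ 1 := by
  obtain ⟨Ωp, ψ, hΩ, hψ, H⟩ := hI K ι J Ω hB
  obtain ⟨⟨m, hm⟩, ϖ, q, p0, p1, p2, p3, p4, p5⟩ := hG K ι J Ω hB M f F hf ha.ne ha.av
  have mF : Qm ι J M m ≤ F := (hm m le_rfl).trans mul_le_right
  obtain ⟨Q', hQ'⟩ := dvd_iff_le.2 mF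
  obtain ⟨i, β, _, B, j, x, i0, i1, i5, hBj, hE, H⟩ := H M n b hb c l hc f hf hl hw m
  refine ⟨i, i0, i1, i5, ?_⟩
  obtain ⟨y₀, y0, y1, y2⟩ := hD K ι J Ω hB M n b hb
  have y3 : ∀ x, Fd ι J 0 (y₀ * x) ↔ Vi ι J x := fun x => by simpa using y1 0 x
  obtain ⟨ω, ω1, ω2⟩ := omx hf ha
  obtain ⟨q1, -, q3, q4, -⟩ := hQ K ι J Ω hB M
  have fin : Finite (𝓞 M ⧸ Qm ι J M m) :=
    (absNorm_ne_zero_iff _).1 (by rw [q3, map_pow, q4]; positivity)
  have := Fintype.ofFinite (𝓞 M ⧸ Qm ι J M m)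
  obtain ⟨r, hr⟩ := (Ideal.Quotient.mk_surjective (I := Qm ι J M m)).hasRightInverse
  have pF : ϖ ∈ F := mul_le_left (p2 ▸ mem_span_singleton_self ϖ)
  obtain ⟨τ, t1, t2⟩ := hF K ι J Ω hB ψ hψ M y₀ y3 m F ω ϖ mF ω1 p0 pF p4 r hr
  obtain ⟨Z, Z1, Z2⟩ := H _ (fun t => y₀ * r t) fun t => (y3 _).2 (Vi_of ι J _)
  have hn : finrank K M = n := by simpa using finrank_eq_card_basis b
  have a1 : a ⊤ = 1 := one_eq_top (R := 𝓞 M) ▸ ha.hc.one
  have V : Iv ι J f ψ m n (fun t => y₀ * r t) k fun t => (ω (r t))⁻¹ :=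
    iv hψ y3 r hr (fun z => (ω z)⁻¹) (fun z z' h => by rw [ω1.per z z' (mF h)]) fun e he z => by
      rw [ω1.mul, ω2 e e.ne_zero he, span_singleton_eq_top.2 e.isUnit, a1, one_mul, mul_inv,
        mul_inv_cancel_left₀ (pow_ne_zero _ (jn_ne (RingOfIntegers.coe_ne_zero_iff.2 e.ne_zero)))]
  have cF := lc_cop ha hf
  have f0 : f * F ≠ ⊥ := mul_ne_zero (pv_ne hf) ha.ne
  obtain ⟨-, -, h3, -⟩ := hH K ι J Ω hB M k _ a f0 ha.hc
  have FQ : F ∣ Qm ι J M 1 ^ m := q3 m ▸ dvd_iff_le.2 mF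
  have un : ∀ I, I ⊔ f = ⊤ → Pv ι J I → ‖ι (a I)‖ = 1 := fun I h p => h3 I ⟨pv_ne p,
    isCoprime_iff_sup_eq.1 ((isCoprime_iff_sup_eq.2 h).mul_right
      ((isCoprime_iff_sup_eq.2 ((q1 I).1 p)).pow_right.of_isCoprime_of_dvd_right FQ))⟩ p
  obtain ⟨-, -, hV⟩ := hV K ι J Ω hB
  obtain ⟨-, v2, -⟩ := hV M
  set d := dv ι J b with hd
  have d0 : 0 < d := lt_of_le_of_ne (norm_nonneg _) fun e => by simp [← e] at y2
  have Q0 : Q' ≠ ⊥ := right_ne_zero_of_mul (hQ' ▸ qm_ne)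
  have Qf : IsCoprime Q' f := (isCoprime_iff_sup_eq.2 ((q1 f).1 hf)).symm.pow_left
    |>.of_isCoprime_of_dvd_left (q3 m ▸ hQ' ▸ dvd_mul_left Q' F)
  have cp : ∀ I, Cp f (Q' * I) ↔ Cp f I := fun I => by
    simp only [Cp, ← isCoprime_iff_sup_eq, IsCoprime.mul_left_iff, Qf, true_and, ← zero_eq_bot,
      mul_ne_zero_iff]
    exact and_congr_left fun _ => and_iff_right Q0
  have cB : ∀ t, IsCoprime (Qm ι J M m) (B t) := fun t => qm_cop (hBj t).2 (q1 _).1 (q3 m)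
  have vi : ∀ I, Cp f I → ((∀ y ∈ ⊤ * F, Vi ι J (x I * y)) ↔ Q' ∣ I) := fun I h => by
    rw [vi_iff (hE I h) (cB _), top_mul, hQ', mul_comm I, mul_dvd_mul_iff_left ha.ne]
  have t3 := fun I (h : Cp f I) => t2 ⊤ 1 (by rwa [top_mul]) trivial (by simp) (x I)
    (vi_lev (hE I h) (cB _))
  have hv1 : ∀ I, Cp f I → hv ι J ψ m n (fun t => y₀ * r t) (fun t => (ω (r t))⁻¹) (x I) =
      (∑ t, if r t ∈ (⊤ : Ideal (𝓞 M)) then (ω (r t))⁻¹ * ch ψ y₀ (x I) (r t) else 0) /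
        3 ^ (m * n) := fun I h => by
    rw [hv, if_pos (vi_lev (hE I h) (cB _))]
    simp only [Submodule.mem_top, if_true, ch]
  let u' : β → ℂ := fun t => if h : ∃ I, Cp f I ∧ j (Q' * I) = t then u h.choose else 0
  have u2 : ∀ I, Cp f I → u' (j (Q' * I)) = u I := fun I h => by
    have k : ∃ I', Cp f I' ∧ j (Q' * I') = j (Q' * I) := ⟨I, h, rfl⟩
    have k1 := hE _ ((cp _).2 k.choose_spec.1)
    have k2 := hE _ ((cp _).2 h)
    rw [k.choose_spec.2] at k1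
    rw [mul_comm Q', mul_assoc] at k1
    rw [mul_comm Q' I, mul_assoc, mul_comm I Q'] at k2
    exact (dif_pos k).trans (ry_eq hu (mul_ne_zero Q0 (hBj _).1.1) k1 k2)
  let w : β → ℂ := fun t => (a (B t))⁻¹ * u' t
  have nB : ∀ t, ‖ι (a (B t))‖ = 1 := fun t => un _ (hBj t).1.2 (pv_two (hBj t).2)
  have w1 : ∀ t, ‖ι (w t)‖ ≤ 1 := fun t => by
    rw [map_mul, map_inv₀, norm_mul, norm_inv, nB, inv_one, one_mul]
    unfold u'
    split_ifs
    · exact u1 _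
    · simp
  have k0 : 0 < k := by omega
  have l2 : 2 ≤ l := hc.1.two_le
  have c0 : c ≠ ⊥ := pv_ne (pv_c (ι := ι) (J := J) hc)
  have cQ : IsCoprime c Q' := (isCoprime_iff_sup_eq.2 ((q1 c).1 (pv_c hc))).pow_right
    |>.of_isCoprime_of_dvd_right (q3 m ▸ hQ' ▸ dvd_mul_left Q' F)
  have xq : ∀ I, xi c l (Q' * I) = xi c l I := fun I =>
    if_congr ⟨cQ.dvd_of_dvd_mul_left, fun t => t.mul_left _⟩ rfl rfl
  have S := (Z1 _ k w V k0).2 0 (by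
    have : (3 : ℝ) ≤ k := by exact_mod_cast hk
    simp only [Complex.zero_re]
    linarith)
  have inj : Function.Injective fun I : Ideal (𝓞 M) => Q' * I := fun I I' h =>
    mul_left_cancel₀ Q0 h
  set C := τ * a q * J (Algebra.norm K (ϖ : M)) ^ k with hC
  have S' : HasSum (fun I => (i * C) * (xi c l I * (a I * u I))) (Z (fun t => (ω (r t))⁻¹) k w 0) := by
    refine ((inj.hasSum_iff fun I h => ?_).2 S).congr_fun (fun I => ?_) |>.trans le_rfl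
    · split_ifs with t
      · rw [hv1 I t, (t3 I t).1 fun e => h (by
          obtain ⟨I', e⟩ := (vi I t).1 e
          exact ⟨I', e.symm⟩)]
        simp
      · rfl
    · simp only [Function.comp]
      by_cases h : Cp f I
      · have h' := (cp I).2 h
        obtain ⟨x', e1, e2⟩ := om_val ha.hc.mul ω2 hQ' (hE _ h') p0 p1 p2
        have n1 : a (B (j (Q' * I))) ≠ 0 := fun e => by simpa [e] using nB (j (Q' * I))
        have n2 : J (Algebra.norm K (x (Q' * I))) ≠ 0 := jn_ne (As.Lc.E_ne (hE _ h'))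
        rw [if_pos h', hv1 _ h', (t3 _ h').2 x' ((vi _ h').2 (dvd_mul_right _ _))
          (by rw [e1]; simp), e2, hn, xq, neg_zero, Complex.cpow_zero, absNorm_top]
        simp only [w, u2 I h, hC]
        field_simp
        simp
      · rw [if_neg (mt (cp I).1 h), not_not.1 (mt (hc_ne ha.hc).1 fun t =>
          h ⟨t.1, top_unique (t.2.ge.trans (sup_le_sup_left mul_le_left _))⟩)]
        simp
  have qf : q ⊔ f = ⊤ := top_unique ((by simpa using sup_congr p1 : span {ϖ} ⊔ f = ⊤).ge.trans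
    (sup_le_sup_right (p2.le.trans mul_le_right) _))
  set N := ‖(absNorm F : ℂ_[3])‖ with hN
  have N0 : 0 < N := lt_of_le_of_ne (norm_nonneg _) fun e => by simp [← e] at t1
  have nC : ‖ι C‖ = N ^ k / √N := by
    have : ‖ι τ‖ * √N = 1 := by
      rw [← Real.sqrt_sq (norm_nonneg (ι τ)), ← Real.sqrt_mul (sq_nonneg _), t1, Real.sqrt_one]
    rw [hC, map_mul, map_mul, map_pow, norm_mul, norm_mul, norm_pow, un q qf p3, p5, mul_one,
      eq_inv_of_mul_eq_one_left this, div_eq_inv_mul]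
  have i2 : (i : ℂ) * C ≠ 0 := mul_ne_zero (Nat.cast_ne_zero.2 i0.ne') fun e => by
    rw [e, map_zero, norm_zero] at nC
    exact absurd nC (by positivity)
  have s0 := summ_xi l2 ((summable_mul_left_iff i2).1 S'.summable)
  obtain ⟨s1, s2⟩ := smooth' (l := l) c0 _ s0
  have T : Z (fun t => (ω (r t))⁻¹) k w 0 =
      i * C * ∑' I, a I * (u I - l * a c * u (c * I)) := by
    rw [← S'.tsum_eq, tsum_mul_left, s2, ← tsum_mul_left, ← s0.tsum_sub (s1.mul_left _)]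
    refine congrArg _ (tsum_congr fun I => ?_)
    rw [ha.hc.mul]
    ring
  have δ0 : 0 ≤ d⁻¹ ^ (k - 1) := by positivity
  have Nn : N2 ι J m k k (fun t => y₀ * r t) (fun t => (ω (r t))⁻¹) (fun t => (ω (r t))⁻¹) 0
      (d⁻¹ ^ (k - 1)) := fun t y' h => by
    have v0 := (y1 m ((y' - y₀ * r t) / (3 ^ m * y₀))).1 (by rwa [mul_div_cancel₀ _ (by simp [y0])])
    have e : y' = y₀ * (r t + (((3 : 𝓞 M) ^ m : 𝓞 M) : M) * ((y' - y₀ * r t) / (3 ^ m * y₀))) := by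
      rw [show (((3 : 𝓞 M) ^ m : 𝓞 M) : M) = 3 ^ m from rfl]
      field_simp
      ring
    have v := (v2 _ (Vi_add (Vi_of ι J (r t)) (Vi_mul (Vi_of ι J ((3 : 𝓞 M) ^ m)) v0))).2.1
    rw [zero_mul, sub_zero, norm_mul, norm_pow]
    refine (mul_le_of_le_one_left (by positivity) (om_le ω1 _)).trans
      (pow_le_pow_left₀ (norm_nonneg _) ?_ _)
    rw [e, map_mul, map_mul, map_mul, norm_mul, eq_inv_of_mul_eq_one_left y2]
    exact mul_le_of_le_one_right (inv_nonneg.2 d0.le) v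
  have R := Z2 _ _ k k w w 0 _ _ V V k0 k0 δ0 δ0 w1 (fun _ => by simpa using δ0) Nn Nn
  rw [zero_mul, sub_zero, nv_norm, hΩ, T, map_mul, map_mul, map_natCast, norm_mul, norm_mul,
    nC] at R
  have q : 0 < √d := Real.sqrt_pos.2 d0
  have g : d ^ k / √d * (d⁻¹ ^ (k - 1) / √d) = 1 := by
    obtain ⟨k, rfl⟩ : ∃ t, k = t + 1 := ⟨k - 1, by omega⟩
    rw [div_mul_div_comm, Real.mul_self_sqrt d0.le, Nat.add_sub_cancel, inv_pow, pow_succ]
    field_simp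
  have R' := mul_le_mul_of_nonneg_left R (show 0 ≤ d ^ k / √d by positivity)
  rw [g] at R'
  rw [sc, mul_pow, Real.sqrt_mul d0.le, ← div_mul_div_comm]
  exact le_of_eq_of_le (by ring) R'

theorem bndr (hI : IDL2) (hD : DUA) (hH : HCN) (hV : VAL) (hQ : VAQ) (hG : GEN) (hF : FTW) :
    BNDR := by
  intro K _ _ ι J Ω hB M _ _ _ n b hb c l hc
  refine ⟨2 * Units.torsionOrder M, fun k f F a u hk _ hf hl hw ha hu u1 => ?_⟩
  obtain ⟨i, i0, i1, -, R⟩ := bndr0 hI hD hH hV hQ hG hF hB hb hc hk hf hl hw ha hu u1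
  have i3 : (i : ℝ) ≤ 2 * Units.torsionOrder M := by exact_mod_cast i1
  have p := nat_nm i0
  generalize sc Ω _ n k * _ = X at R ⊢
  have i4 : (0 : ℝ) ≤ i := Nat.cast_nonneg i
  by_cases P : X ≤ 0
  · exact P.trans (i4.trans i3)
  · have := mul_le_mul_of_nonneg_left R i4
    have := mul_le_mul_of_nonneg_left p (not_le.1 P).le
    nlinarith

/-- integrality of the smoothed value -/
theorem int1 (hI : IDL2) (hD : DUA) (hH : HCN) (hV : VAL) (hQ : VAQ) (hG : GEN) (hF : FTW)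
    {K : Type} [Field K] [NumberField K] {ι : ℂ →+* ℂ_[3]} {J : K →+* ℂ} {Ω : ℝ}
    (hB : Base ι J Ω) {M : Type} [Field M] [NumberField M] [Algebra K M] {n : ℕ}
    {b : Basis (Fin n) K M} (hb : Vb ι J b) {c : Ideal (𝓞 M)} {l : ℕ} (hc : Sm c l)
    {k : ℕ} {f F : Ideal (𝓞 M)} {a : Ideal (𝓞 M) → ℂ} (hf : Pv ι J f)
    (hl : f ⊔ span {(l : 𝓞 M)} = ⊤) (ht : TF f)
    (hn : ∀ u : (𝓞 M)ˣ, (u : 𝓞 M) - 1 ∈ f → Algebra.norm K ((u : 𝓞 M) : M) = 1)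
    (hw : ∃ w : Ideal (𝓞 M), w.IsMaximal ∧ f ≤ w ∧ 3 ∉ w) (ha : Lc ι J k f F a) (hk : 3 ≤ k) :
    ‖ι (1 - l * a c)‖ * (sc Ω (dv ι J b * ‖(absNorm F : ℂ_[3])‖) n k * ‖ι (∑' I, a I)‖) ≤ 1 := by
  obtain ⟨i, -, -, i1, R⟩ := bndr0 (u := fun _ => 1) hI hD hH hV hQ hG hF hB hb hc hk hf hl hw ha
    (fun _ _ _ _ => rfl) fun _ => by simp
  rw [i1 ht hn, Nat.cast_one, norm_one, one_mul, mul_one, tsum_mul_right, map_mul, norm_mul] at R
  exact le_of_eq_of_le (by ring) R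

end Vale.Agent.P014Y.C.Cg
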