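import Vale.Agent.P014Y.C.Cg.St
import Vale.Agent.P014Y.C.As.Gau

/-!
# P014 Y, C, block CG: Gauss sums and Fourier transforms at `v` (rows GAU, FTW)
-/

open NumberField Module Finset
open scoped Classical

noncomputable section

namespace Vale.Agent.P014Y.C.Cg

open As As.Fo As.Ga Al.Gx

namespace Fw

section

variable {R : Type} [CommRing R] {Q F T : Ideal R} [Fintype (R ⧸ Q)] {h χ : R → ℂ}

theorem sf_r {r : R ⧸ Q → R} (hr : ∀ a, Ideal.Quotient.mk Q (r a) = a) (p : Pf Q h) :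
    ∑ a, h (r a) = Sf Q h :=
  sum_congr rfl fun a _ => p _ _ (Ideal.Quotient.eq.1 ((hr a).trans (Ideal.Quotient.mk_out a).symm))

variable (le : Q ≤ T * F) (hp : Pf F h) (ad : ∀ x y, χ (x + y) = χ x * χ y)
include hp ad

omit [Fintype (R ⧸ Q)] in
theorem pf (le : Q ≤ T * F) (o : ∀ y ∈ Q, χ y = 1) :
    Pf Q fun r => if r ∈ T then h r * χ r else 0 := fun x y k => by
  have e : x ∈ T ↔ y ∈ T := by
    rw [← sub_add_cancel x y, T.add_mem_iff_right (Ideal.mul_le_left (le k))]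
  simp only [e, hp x y (Ideal.mul_le_right (le k)), pf_of ad o x y k]

include le

theorem in0 (o : ∀ y ∈ Q, χ y = 1) (n : ¬ ∀ y ∈ T * F, χ y = 1) :
    Sf Q (fun r => if r ∈ T then h r * χ r else 0) = 0 := by
  push Not at n
  obtain ⟨y, hy, n⟩ := n
  have e := Sf_aff (pf hp ad le o) (u := 1) (v := 1) (by simp) y
  refine eq_zero_of_mul_eq_self_left n (Eq.trans ?_ e)
  simp only [Sf, mul_sum, one_mul, T.add_mem_iff_left (Ideal.mul_le_left hy), ad]
  refine sum_congr rfl fun a _ => ?_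
  rw [hp (a.out + y) a.out (by simpa using Ideal.mul_le_right hy)]
  split_ifs <;> ring

theorem in1 [Fintype (R ⧸ F)] (o : ∀ y ∈ T * F, χ y = 1) {t : R} (t0 : t ∈ T) (t1 : t - 1 ∈ F) :
    (Nat.card (R ⧸ T * F) : ℂ) * Sf Q (fun r => if r ∈ T then h r * χ r else 0) =
      Nat.card (R ⧸ Q) * Sf F fun s => h s * χ (t * s) := by
  have := Finite.of_surjective _ (Ideal.Quotient.factor_surjective le)
  have := Fintype.ofFinite (R ⧸ T * F)
  have p := pf hp ad le_rfl o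
  rw [Sf_le le p]
  congr 1
  refine (sum_of_injOn (fun s : R ⧸ F => Ideal.Quotient.mk (T * F) (t * s.out))
    (fun a _ b _ e => ?_) (fun _ _ => mem_univ _) (fun b _ n => if_neg fun k => n ?_)
    fun a _ => ?_).symm
  · have := F.sub_mem (Ideal.mul_le_right (Ideal.Quotient.eq.1 e))
      (F.mul_mem_right (a.out - b.out) t1)
    rw [← Ideal.Quotient.mk_out a, ← Ideal.Quotient.mk_out b]
    exact Ideal.Quotient.eq.2 (by convert this using 1; ring)
  · refine ⟨Ideal.Quotient.mk F b.out, mem_coe.2 (mem_univ _), ?_⟩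
    refine (Ideal.Quotient.eq.2 ?_).trans (Ideal.Quotient.mk_out b)
    convert (T * F).add_mem (Ideal.mul_mem_mul t0 (out_mk b.out)) (Ideal.mul_mem_mul k t1) using 1
    ring
  · refine Eq.trans ?_ (p _ (t * a.out) (out_mk _)).symm
    beta_reduce
    rw [if_pos (T.mul_mem_right _ t0),
      hp (t * a.out) a.out (by convert F.mul_mem_right a.out t1 using 1; ring)]

end

theorem card_eq {M : Type} [Field M] [NumberField M] (I : Ideal (𝓞 M)) :
    Nat.card (𝓞 M ⧸ I) = Ideal.absNorm I := by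
  rw [Ideal.absNorm_apply, Submodule.cardQuot_apply]

theorem val (ι : ℂ →+* ℂ_[3]) {M : Type} [Field M] [NumberField M] {F : Ideal (𝓞 M)} {j m : ℕ}
    {ω l : 𝓞 M → ℂ} [Fintype (𝓞 M ⧸ F)] (h : As.Lc F j ω) (A : Lam F l)
    (hm : (3 : 𝓞 M) ^ m ∈ F) : ‖ι (gs F ω l 1)‖ ^ 2 = ‖(Ideal.absNorm F : ℂ_[3])‖ := by
  have g := gs_val h A (V := (NormedField.toAbsoluteValue ℂ_[3]).comp ι.injective)
    (fun x y => show ‖ι _‖ ≤ max ‖ι x‖ ‖ι y‖ from
      map_add ι x y ▸ IsUltrametricDist.norm_add_le_max (ι x) (ι y))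
    (show ‖ι 3‖ < 1 by rw [map_ofNat, nm_two]; norm_num) hm
  change ‖ι _‖ ^ 2 = ‖ι _‖ at g
  rwa [card_eq, map_natCast] at g

variable {K : Type} [Field K] [NumberField K] {ι : ℂ →+* ℂ_[3]} {J : K →+* ℂ}
  {M : Type} [Field M] [NumberField M] [Algebra K M] {F : Ideal (𝓞 M)} {ϖ : 𝓞 M}

theorem vi_div (e : ϖ ∈ F) (p0 : ϖ ≠ 0)
    (c : ∀ s : 𝓞 M, Pv ι J (Ideal.span {s}) → Ideal.span {s} ⊔ F = ⊤) {y : 𝓞 M}
    (hy : Vi ι J ((ϖ : M)⁻¹ * y)) : y ∈ F := by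
  obtain ⟨s, s1, s2⟩ := hy
  obtain ⟨w, hw⟩ : ∃ w : 𝓞 M, (w : M) = algebraMap K M s * ((ϖ : M)⁻¹ * y) := ⟨⟨_, s2⟩, rfl⟩
  have k : algebraMap (𝓞 K) (𝓞 M) s * y = ϖ * w := RingOfIntegers.ext (by
    have : (ϖ : M) * w = algebraMap K M s * y := by
      rw [hw, mul_left_comm, mul_inv_cancel_left₀ (RingOfIntegers.coe_ne_zero_iff.2 p0)]
    exact (map_mul _ _ _).trans (this.symm.trans (map_mul _ _ _).symm))
  obtain ⟨a, ha, b, hb, o⟩ := Submodule.mem_sup.1 ((Ideal.eq_top_iff_one _).1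
    (c _ ⟨s, s1, Ideal.mem_span_singleton_self _⟩))
  obtain ⟨z, rfl⟩ := Ideal.mem_span_singleton.1 ha
  rw [← one_mul y, ← o, add_mul, mul_right_comm, k]
  exact F.add_mem (F.mul_mem_right _ (F.mul_mem_right _ e)) (F.mul_mem_right _ hb)

end Fw

open Fw

/-- **row GAU** -/
theorem gau : GAU := fun ι M _ _ F ω χ _ h ad pr ⟨i, hi⟩ _ r hr => by
  obtain ⟨j, hj⟩ := h.mu
  have L : As.Lc F j ω := ⟨h.one, h.mul, h.per, h.zero, hj, h.pm⟩
  have A : Lam F χ := ⟨ad, fun x k => by simpa using (pr x).2 k 1,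
    fun t k => (pr t).1 fun y => mul_comm t y ▸ k y⟩
  refine ⟨gs F ω χ 1, val ι L A (m := i) ((pr _).1 fun y => by
    simpa using (A.pow (3 ^ i) y).symm.trans (hi y)), fun x => ?_⟩
  rw [← gs_eq L A, gs]
  exact sf_r (h := fun y => (ω y)⁻¹ * χ (x * y)) hr fun a b e => by
    beta_reduce
    rw [h.per a b e, A.pf _ (x * b) (by rw [← mul_sub]; exact F.mul_mem_left _ e)]

/-- **row FTW** -/
theorem ftw (vq : VAQ) : FTW := fun K _ _ ι J Ω B ψ p M _ _ _ y₀ d m F ω ϖ le h p0 pF dv _ r hr => by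
  obtain ⟨q1, -, q3, q4, -⟩ := vq K ι J Ω B M
  obtain ⟨j, hj⟩ := h.mu
  have L : As.Lc F j ω := ⟨h.one, h.mul, h.per, h.zero, hj, h.pm⟩
  have q5 : Ideal.absNorm (Qm ι J M m) = 3 ^ (m * finrank K M) := by
    rw [q3, map_pow, q4, ← pow_mul']
  have := Finite.of_surjective _ (Ideal.Quotient.factor_surjective le)
  have := Fintype.ofFinite (𝓞 M ⧸ F)
  have m3 : (3 : 𝓞 M) ^ m ∈ Qm ι J M m := mem_Q.2 (by
    rw [show (((3 : 𝓞 M) ^ m : 𝓞 M) : M) = 3 ^ m from (map_pow _ _ _).trans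
      (congrArg (· ^ m) (map_ofNat (algebraMap (𝓞 M) M) 3)), div_self (pow_ne_zero _ three_ne_zero)]
    exact Vi_of ι J 1)
  have F0 : (Ideal.absNorm F : ℂ) ≠ 0 := by rw [← card_eq]; exact Nat.cast_ne_zero.2 Nat.card_pos.ne'
  have c : ∀ s : 𝓞 M, Pv ι J (Ideal.span {s}) → Ideal.span {s} ⊔ F = ⊤ := fun s k =>
    top_unique ((Ideal.sup_pow_eq_top (n := m) ((q1 _).1 k)).ge.trans
      (sup_le_sup_left (q3 m ▸ le) _))
  have A : Lam F (ch ψ y₀ (ϖ : M)⁻¹) := ⟨ch_add,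
    (ch_triv p d F).2 fun y k => by rw [inv_mul_eq_div]; exact dv y k,
    fun t k => vi_div pF p0 c ((ch_triv p d (Ideal.span {t})).1 (fun y hy => by
      obtain ⟨z, rfl⟩ := Ideal.mem_span_singleton'.1 hy
      exact k z) t (Ideal.mem_span_singleton_self t))⟩
  have hp : Pf F fun x => (ω x)⁻¹ := fun x y k => by simp only [h.per x y k]
  refine ⟨gs F ω (ch ψ y₀ (ϖ : M)⁻¹) 1 / Ideal.absNorm F, ?_, fun D t lD t0 t1 x hx => ?_⟩
  · have N0 : ‖(Ideal.absNorm F : ℂ_[3])‖ ≠ 0 := by simpa using F0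
    rw [map_div₀, norm_div, div_pow, val ι L A (le m3), map_natCast]
    field_simp
  have o : ∀ y ∈ Qm ι J M m, ch ψ y₀ x y = 1 := (ch_triv p d _).2 fun y hy => by
    have := Vi_mul hx (mem_Q.1 hy)
    rwa [show 3 ^ m * x * ((y : M) / 3 ^ m) = x * y by field_simp] at this
  rw [sf_r hr (pf hp ch_add lD o)]
  refine ⟨fun z => in0 lD hp ch_add o (mt (ch_triv p d _).1 z), fun x' z e => ?_⟩
  have i := in1 lD hp ch_add ((ch_triv p d _).2 z) t0 t1
  have ce : ∀ s : 𝓞 M, ch ψ y₀ x (t * s) = ch ψ y₀ (ϖ : M)⁻¹ (x' * s) := fun s => by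
    have P0 : (ϖ : M) ≠ 0 := RingOfIntegers.coe_ne_zero_iff.2 p0
    simp only [ch, RingOfIntegers.coe_eq_algebraMap, map_mul] at e P0 ⊢
    rw [e]
    congr 3
    field_simp
  have T0 : (Ideal.absNorm D : ℂ) ≠ 0 := Nat.cast_ne_zero.2 fun y => by
    have := Ideal.absNorm_dvd_absNorm_of_le lD
    rw [map_mul, y, q5, zero_mul, zero_dvd_iff] at this
    exact absurd this (by positivity)
  simp only [ce] at i
  rw [card_eq, card_eq, q5, map_mul, ← gs, gs_eq L A] at i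
  push_cast at i
  rw [eq_div_of_mul_eq (mul_ne_zero T0 F0) ((mul_comm _ _).trans i)]
  field_simp

end Vale.Agent.P014Y.C.Cg
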