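import Vale.Agent.P014Y.C.Cg.St
import Vale.Agent.P014Y.C.As.Val
import Vale.Agent.P014Y.C.As.Vaq
import Vale.Agent.P014Y.C.As.Hcn

/-!
# P014 Y, C, block CG: a generator at `v` (row GEN)
-/

open NumberField Module Ideal
open scoped Classical

noncomputable section

namespace Vale.Agent.P014Y.C.Cg

open As Al Al.Gx

theorem gen : GEN := by
  intro K _ _ ι J Ω hB M _ _ _ f F pf F0 hF
  obtain ⟨⟨π, p1, p2⟩, v2, v3⟩ := val K ι J Ω hB
  obtain ⟨-, -, -, -, v7⟩ := v3 M
  obtain ⟨q1, q2, q3, q4, q5⟩ := vaq0 K ι J Ω hB M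
  set Q := Qm ι J M 1 with hQ
  have Q0 : Q ≠ ⊥ := fun e => by
    rw [e, absNorm_bot] at q4
    exact absurd q4.symm (by positivity)
  have Q1 : Q ≠ ⊤ := fun e => by
    have _ : FiniteDimensional K M := Module.Finite.of_restrictScalars_finite ℚ K M
    rw [e, absNorm_top, eq_comm, Nat.pow_eq_one] at q4
    have := finrank_pos (R := K) (M := M)
    omega
  obtain ⟨k, hk⟩ : ∃ k, Q ^ k ≤ F := exists_pow_le_of_le_radical_of_fg (by
    rw [radical_eq_sInf]
    refine le_sInf fun P hP => ?_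
    have m := hP.2.isMaximal fun e => F0 (le_bot_iff.1 (e ▸ hP.1))
    exact ((q2 P).1 (hF P m (dvd_iff_le.2 hP.1))).2) (IsNoetherian.noetherian Q)
  refine ⟨⟨k + 1, fun m hm => ?_⟩, ?_⟩
  · rw [q3 m]
    exact (pow_le_pow_right hm).trans (by rw [pow_succ']; exact mul_mono_right hk)
  have fQ : IsCoprime f Q := isCoprime_iff_sup_eq.2 ((q1 f).1 pf)
  have fF : f ⊔ F * Q = ⊤ := top_unique ((isCoprime_iff_sup_eq.1 (fQ.pow_right (n := k + 1))).ge.trans
    (sup_le_sup_left (by rw [pow_succ]; exact mul_mono_left hk) _))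
  obtain ⟨a, ha⟩ := IsDedekindDomain.exists_sup_span_eq (mul_le_left : F * Q ≤ F) (mul_ne_zero F0 Q0)
  obtain ⟨u, hu, w, hw, e⟩ := Submodule.mem_sup.1 ((eq_top_iff_one _).1 fF)
  have aF : a ∈ F := ha ▸ mem_sup_right (mem_span_singleton_self a)
  have w1 : a * u + w - 1 ∈ f := by
    rw [show a * u + w - 1 = (a - 1) * u + (u + w - 1) by ring, e, sub_self, add_zero]
    exact f.mul_mem_left _ hu
  have w2 : a * u + w ∈ F := add_mem (F.mul_mem_right _ aF) (mul_le_left hw)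
  obtain ⟨q, hq⟩ := dvd_iff_le.2 ((span_singleton_le_iff_mem _).2 w2)
  have w3 : q ⊔ Q = ⊤ := by
    refine mul_left_cancel₀ F0 ?_
    rw [mul_top, Ideal.mul_sup, ← hq]
    refine le_antisymm (sup_le ((span_singleton_le_iff_mem _).2 w2) mul_le_left)
      (ha.ge.trans (sup_le le_sup_right ((span_singleton_le_iff_mem _).2 ?_)))
    have := add_mem (mem_sup_left (T := F * Q) (mem_span_singleton_self (a * u + w)))
      (mem_sup_right (mul_mem_left _ (a - 1) hw))
    rwa [show a * u + w + (a - 1) * w = a * (u + w) by ring, e, mul_one] at this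
  have pq := (q1 q).2 w3
  set ϖ := a * u + w
  have w0 : ϖ ≠ 0 := fun z => by
    rw [z, span_singleton_eq_bot.2 rfl, eq_comm] at hq
    rw [show q = ⊥ from (mul_eq_zero.1 hq).resolve_left F0, bot_sup_eq] at w3
    exact Q1 w3
  have w0' : (ϖ : M) ≠ 0 := RingOfIntegers.coe_ne_zero_iff.2 w0
  refine ⟨ϖ, q, w0, w1, hq, pq, fun y hy => ?_, ?_⟩
  · rw [div_eq_inv_mul]
    refine q5 _ q F pq (fun y hy => ?_) y hy
    rw [mul_comm q, ← hq] at hy
    obtain ⟨t, rfl⟩ := mem_span_singleton'.1 hy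
    rw [show ((t * ϖ : 𝓞 M) : M) = ϖ * t by push_cast; ring, inv_mul_cancel_left₀ w0']
    exact Vi_of ι J t
  obtain ⟨m, m0, x, x0, -, e⟩ := ex_gen (f := ⊤) top_ne_bot F0 (sup_top_eq _)
  have pm : algebraMap (𝓞 K) (𝓞 M) π ∈ Q := by
    rw [hQ, Vq.qm_one hB]
    exact mem_map_of_mem _ p1
  have d : RingOfIntegers.norm K x ∣ π ^ (finrank K M * (k * m)) := by
    rw [pow_mul, ← RingOfIntegers.norm_algebraMap, ← map_pow]
    refine map_dvd _ (mem_span_singleton.1 ?_)
    rw [e, pow_mul]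
    exact pow_mem_pow (hk (pow_mem_pow pm k)) m
  have c := (v2 (RingOfIntegers.norm K x) fun s hs =>
    (p2 s hs).pow_left.of_isCoprime_of_dvd_left d).1
  rw [RingOfIntegers.coe_norm] at c
  have e1 : ‖J (Algebra.norm K (x : M))‖ ^ 2 = (absNorm F : ℝ) ^ m := by
    rw [norm_J hB.two hB.im, Algebra.norm_norm, ← Nat.cast_pow, ← map_pow, ← e,
      absNorm_span_singleton, ← Algebra.coe_norm_int, Nat.cast_natAbs]
    simp
  have e2 : ‖(absNorm F : ℂ_[3])‖ ^ m = ‖ι (J (Algebra.norm K (x : M)))‖ := by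
    have := congrArg (fun z => ‖ι z‖) (Complex.mul_conj' (J (Algebra.norm K (x : M))))
    rw [← Complex.ofReal_pow, e1] at this
    simpa [c] using this.symm
  have e3 : span {ϖ ^ m} = span {x} * q ^ m := by rw [← span_singleton_pow, hq, mul_pow, e]
  obtain ⟨t, t1, t2⟩ := mem_span_singleton_mul.1 (e3 ▸ mem_span_singleton_self _)
  have e4 : span {t} = q ^ m := mul_left_cancel₀ (a := span {x}) (by simpa using x0) (by
    rw [← e3, span_singleton_mul_span_singleton, t2])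
  have e5 := (v7 t).1 (by
    obtain ⟨s, s1, s2⟩ := pq
    exact ⟨s ^ m, by simp [s1], by rw [e4, map_pow]; exact pow_mem_pow s2 m⟩)
  refine (pow_left_inj₀ (norm_nonneg _) (norm_nonneg _) m0.ne').1 ?_
  have e6 : (ϖ : M) ^ m = x * t := by exact_mod_cast congrArg (algebraMap (𝓞 M) M) t2.symm
  rw [e2, ← norm_pow, ← map_pow, ← map_pow, ← map_pow, e6, map_mul, map_mul, map_mul, norm_mul, e5,
    mul_one]

end Vale.Agent.P014Y.C.Cg
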