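import Vale.Agent.P014Y.C.Cg.St

/-!
# P014 Y, C, block CG: the bound for characters ramified at `v` (row)
-/

open NumberField Module
open scoped Classical

noncomputable section

namespace Vale.Agent.P014Y.C.Cg

/-- **export BNDR**: smoothed partial sums are bounded, conductor `F` above `v` -/
def BNDR : Prop := ∀ (K : Type) [Field K] [NumberField K] (ι : ℂ →+* ℂ_[3]) (J : K →+* ℂ) (Ω : ℝ),
  Base ι J Ω → ∀ (M : Type) [Field M] [NumberField M] [Algebra K M] (n : ℕ)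
  (b : Basis (Fin n) K M), Vb ι J b → ∀ (c : Ideal (𝓞 M)) (l : ℕ), Sm c l → ∃ C : ℝ,
  ∀ (k : ℕ) (f F : Ideal (𝓞 M)) (a u : Ideal (𝓞 M) → ℂ), 3 ≤ k → Even k → Pv ι J f →
    f ⊔ Ideal.span {(l : 𝓞 M)} = ⊤ → (∃ w : Ideal (𝓞 M), w.IsMaximal ∧ f ≤ w ∧ 3 ∉ w) →
    Lc ι J k f F a → Ry f u → (∀ I, ‖ι (u I)‖ ≤ 1) →
    sc Ω (dv ι J b * ‖(Ideal.absNorm F : ℂ_[3])‖) n k *
      ‖ι (∑' I, a I * (u I - l * a c * u (c * I)))‖ ≤ C

end Vale.Agent.P014Y.C.Cg
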