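import Vale.Agent.P014Y.C.Cg.Cong
import Vale.Agent.P014Y.C.Ms.All

/-!
# P014 Y, C, block CG: the exports without hypotheses
-/

namespace Vale.Agent.P014Y.C.Cg

theorem idl2' : As.IDL2 := As.idl20 Ms.x_bas Ms.x_msr Ms.tfc

theorem cong : CONG := cong0 idl2'

theorem acx : ACX := acx0 idl2'

theorem bnd : BND := As.bnd0 Ms.x_bas Ms.x_msr Ms.tfc

end Vale.Agent.P014Y.C.Cg
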