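import Vale.Agent.P014Y.C.Cg.All
import Vale.Agent.P014Y.C.Cg.Bndr

/-!
# P014 Y, C, block CG: the value in weight one exists, integrality, bound (no hypotheses)
-/

open NumberField Module

namespace Vale.Agent.P014Y.C.Cg

theorem bndr' : BNDR := bndr idl2' As.dua (As.hcn As.val) As.val As.vaq0 gen (ftw As.vaq0)

theorem cgx0 : ∀ (K : Type) [Field K] [NumberField K] (ι : ℂ →+* ℂ_[3]) (J : K →+* ℂ) (Ω : ℝ),
  Base ι J Ω → ∀ (M : Type) [Field M] [NumberField M] [Algebra K M] (n : ℕ)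
  (b : Basis (Fin n) K M), Vb ι J b → ∀ (c : Ideal (𝓞 M)) (l : ℕ), Sm c l →
  ∀ (k : ℕ) (f F : Ideal (𝓞 M)) (a : Ideal (𝓞 M) → ℂ), Pv ι J f →
    f ⊔ Ideal.span {(l : 𝓞 M)} = ⊤ → TF f →
    (∀ u : (𝓞 M)ˣ, (u : 𝓞 M) - 1 ∈ f → Algebra.norm K ((u : 𝓞 M) : M) = 1) →
    (∃ w : Ideal (𝓞 M), w.IsMaximal ∧ f ≤ w ∧ 3 ∉ w) → Lc ι J k f F a →
    (k = 1 → ∃ z, AC a z) ∧ (3 ≤ k → ‖ι (1 - l * a c)‖ *
      (sc Ω (dv ι J b * ‖(Ideal.absNorm F : ℂ_[3])‖) n k * ‖ι (∑' I, a I)‖) ≤ 1) :=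
  fun K _ _ ι J Ω hB M _ _ _ n b hb c l hc k f F a hf hl ht hn hw ha =>
  ⟨fun e => acx K ι J Ω hB M n b hb c l hc k f F a (by omega) (by omega) hf hl hw ha,
    int1 idl2' As.dua (As.hcn As.val) As.val As.vaq0 gen (ftw As.vaq0) hB hb hc hf hl ht hn hw ha⟩

end Vale.Agent.P014Y.C.Cg
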