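import Vale.Agent.P014Y.C.Cg.N2

/-!
# P014 Y, C, block CG: the last steps of the congruence
-/

set_option linter.unusedSectionVars false

open NumberField Module
open scoped Classical

noncomputable section

namespace Vale.Agent.P014Y.C.Cg

open As

theorem nv_sc {Ωp : ℂ_[3]} {Ω d N : ℝ} (hΩ : ‖Ωp‖ = Ω) (dp : 0 < d) (n k : ℕ)
    {Z : ℂ_[3]} {X : ℝ} (z : ‖Z‖ = N ^ k / √N * X) :
    ‖nv Ωp n k Z‖ * (d ^ k / √d) = sc Ω (d * N) n k * X := by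
  rw [nv_norm, hΩ, z, sc, mul_pow, Real.sqrt_mul dp.le]
  ring

/-- size of `τ N(ϖ) ^ k` -/
theorem tau_nm {τ w : ℂ_[3]} {N : ℝ} (h : ‖τ‖ ^ 2 * N = 1) (hw : ‖w‖ = N) (k : ℕ) :
    ‖τ‖ * ‖w‖ ^ k = N ^ k / √N := by
  have e : √N = ‖τ‖⁻¹ := by
    rw [eq_inv_of_mul_eq_one_right h, Real.sqrt_inv, Real.sqrt_sq (norm_nonneg _)]
  rw [hw, e, div_inv_eq_mul, mul_comm]

/-- from the congruence to the equality of the sizes -/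
theorem fin_alg {Ωp y Z₁ Z₂ : ℂ_[3]} {Ω d N₁ N₂ e X₁ X₂ δ : ℝ} {n k₁ k₂ : ℕ} (hΩ : ‖Ωp‖ = Ω)
    (dp : 0 < d) (Ny : ‖y‖ * d = 1) (k1 : 0 < k₁) (k2 : 0 < k₂) (e0 : 0 < e)
    (z1 : ‖Z₁‖ = N₁ ^ k₁ / √N₁ * (e * X₁)) (z2 : ‖Z₂‖ = N₂ ^ k₂ / √N₂ * (e * X₂))
    (fz : ‖nv Ωp n k₂ Z₂ - y ^ (k₂ - 1) / y ^ (k₁ - 1) * nv Ωp n k₁ Z₁‖ ≤ δ * ‖y‖ ^ (k₂ - 1) / √d)
    (lt : δ < e * (sc Ω (d * N₂) n k₂ * X₂)) :
    sc Ω (d * N₁) n k₁ * X₁ = sc Ω (d * N₂) n k₂ * X₂ := by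
  have e1 := nv_sc hΩ dp n k₁ z1
  have e2 := nv_sc hΩ dp n k₂ z2
  have Ny' : ‖y‖ = d⁻¹ := eq_inv_of_mul_eq_one_left Ny
  have sp : 0 < d ^ k₂ / √d := by positivity
  have g := ult (fz.trans_lt (lt_of_mul_lt_mul_right (a := d ^ k₂ / √d) (by
    rw [e2, mul_left_comm]
    refine Eq.trans_lt ?_ lt
    obtain ⟨k, rfl⟩ := Nat.exists_eq_add_of_le' k2
    rw [div_mul_div_comm, Real.mul_self_sqrt dp.le, Ny']
    simp only [Nat.succ_eq_add_one, Nat.add_sub_cancel, inv_pow]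
    field_simp
    ring) sp.le))
  refine mul_left_cancel₀ e0.ne' ?_
  rw [mul_left_comm, mul_left_comm e, ← e1, ← e2, ← g, norm_mul, norm_div, norm_pow, norm_pow, Ny']
  obtain ⟨k₂, rfl⟩ := Nat.exists_eq_add_of_le' k2
  obtain ⟨k₁, rfl⟩ := Nat.exists_eq_add_of_le' k1
  simp only [Nat.succ_eq_add_one, Nat.add_sub_cancel, inv_pow]
  field_simp
  ring

variable {ι : ℂ →+* ℂ_[3]}

/-- the condition on the weights -/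
theorem wt_le {y : ℂ_[3]} (y0 : y ≠ 0) {u v : ℂ} (hu : ‖ι u‖ = 1) (hv : ‖ι v‖ = 1) {δ : ℝ}
    (h : ‖ι (u - v)‖ ≤ δ) (k₁ k₂ : ℕ) :
    ‖y ^ (k₂ - 1) / y ^ (k₁ - 1)‖ * ‖ι (v⁻¹ - u⁻¹)‖ * ‖y‖ ^ (k₁ - 1) ≤ δ * ‖y‖ ^ (k₂ - 1) := by
  have := norm_pos_iff.2 y0
  rw [norm_div, norm_pow, norm_pow, mul_right_comm, div_mul_cancel₀ _ (by positivity),
    mul_comm, map_sub, map_inv₀, map_inv₀, inv_sub_inv (norm_ne_zero_iff.1 (hv ▸ one_ne_zero))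
    (norm_ne_zero_iff.1 (hu ▸ one_ne_zero)), norm_div, norm_mul, hu, hv, mul_one, div_one,
    ← map_sub]
  exact mul_le_mul_of_nonneg_right h (by positivity)

/-- the smoothing factors have the same size -/
theorem sm_eq {l : ℕ} {u v : ℂ} {δ : ℝ} (h : ‖ι (u - v)‖ ≤ δ) (lt : δ < ‖ι (1 - l * v)‖) :
    ‖ι (1 - l * u)‖ = ‖ι (1 - l * v)‖ := by
  refine ult ?_
  rw [← map_sub, show 1 - l * v - (1 - l * u) = l * (u - v) by ring, map_mul, norm_mul, map_natCast]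
  exact (mul_le_of_le_one_left (norm_nonneg _)
    (IsUltrametricDist.norm_natCast_le_one _ _)).trans_lt (h.trans_lt lt)

/-- the Euler factors above `v` in weight at least two are units -/
theorem eul_one {N k : ℕ} {a : ℂ} (k2 : 2 ≤ k) (p1 : ‖(N : ℂ_[3])‖ < 1)
    (p2 : ‖ι a‖ * ‖(N : ℂ_[3])‖ ^ k = 1) : ‖ι (1 - (N * a)⁻¹)‖ = 1 := by
  rw [map_sub, map_one]
  refine (ult ?_).trans norm_one
  obtain ⟨k, rfl⟩ := Nat.exists_eq_add_of_le' k2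
  rw [sub_sub_cancel, norm_one, map_inv₀, map_mul, map_natCast, norm_inv, norm_mul,
    inv_eq_of_mul_eq_one_right (b := ‖(N : ℂ_[3])‖ ^ (k + 1)) (by rw [← p2]; ring)]
  exact pow_lt_one₀ (norm_nonneg _) p1 (by omega)

end Vale.Agent.P014Y.C.Cg
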