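import Vale.Agent.P014Y.C.Cg.Vz
import Vale.Agent.P014Y.C.Cg.Fn
import Vale.Agent.P014Y.C.Cg.Gen
import Vale.Agent.P014Y.C.Cg.Ftw

/-!
# P014 Y, C, block CG: the congruence and the continuation to `s = 0`
-/

set_option linter.unusedSectionVars false

open NumberField Module Finset
open scoped Classical

noncomputable section

namespace Vale.Agent.P014Y.C.Cg

open As As.Fo As.Bd

/-- **export ACX**: the value at `s = 0` exists -/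
def ACX : Prop := ∀ (K : Type) [Field K] [NumberField K] (ι : ℂ →+* ℂ_[3]) (J : K →+* ℂ) (Ω : ℝ),
  Base ι J Ω → ∀ (M : Type) [Field M] [NumberField M] [Algebra K M] (n : ℕ)
  (b : Basis (Fin n) K M), Vb ι J b → ∀ (c : Ideal (𝓞 M)) (l : ℕ), Sm c l →
  ∀ (k : ℕ) (f F : Ideal (𝓞 M)) (a : Ideal (𝓞 M) → ℂ), 0 < k → k ≠ 2 → Pv ι J f →
    f ⊔ Ideal.span {(l : 𝓞 M)} = ⊤ → (∃ w : Ideal (𝓞 M), w.IsMaximal ∧ f ≤ w ∧ 3 ∉ w) →
    Lc ι J k f F a → ∃ z, AC a z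

variable {K : Type} [Field K] [NumberField K] {ι : ℂ →+* ℂ_[3]} {J : K →+* ℂ} {Ω : ℝ}
  {M : Type} [Field M] [NumberField M] [Algebra K M] {k m l : ℕ}
  {f F Q c : Ideal (𝓞 M)} {a : Ideal (𝓞 M) → ℂ} {ψ : AddChar K ℂ} {y₀ : M}
  {S : Finset (Ideal (𝓞 M))} {C : ℂ}

/-- the elementary factor -/
def Gf (C : ℂ) (Q F : Ideal (𝓞 M)) (S : Finset (Ideal (𝓞 M))) (a : Ideal (𝓞 M) → ℂ)
    (c : Ideal (𝓞 M)) (l : ℕ) (s : ℂ) : ℂ :=
  C * ((Ideal.absNorm Q : ℂ) ^ (-s) * (Ideal.absNorm F : ℂ) ^ s) *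
    (∏ P ∈ S, (1 - (Ideal.absNorm P * a P)⁻¹ * (Ideal.absNorm P : ℂ) ^ s)) *
    (1 - l * (a c * (Ideal.absNorm c : ℂ) ^ (-s)))

theorem Gf_zero : Gf C Q F S a c l 0 =
    C * (∏ P ∈ S, (1 - (Ideal.absNorm P * a P)⁻¹)) * (1 - l * a c) := by simp [Gf]

theorem Gf_diff (Q0 : Q ≠ ⊥) (F0 : F ≠ ⊥) (c0 : c ≠ ⊥) (hS : ∀ P ∈ S, P ≠ ⊥) :
    Differentiable ℂ (Gf C Q F S a c l) := by
  have n0 : ∀ (I : Ideal (𝓞 M)) (p : Prop), I ≠ ⊥ → (Ideal.absNorm I : ℂ) ≠ 0 ∨ p := fun I _ e =>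
    .inl (by simp [Ideal.absNorm_eq_zero_iff, e])
  exact ((((differentiable_neg.const_cpow (n0 _ _ Q0)).mul
    (differentiable_id.const_cpow (n0 _ _ F0))).const_mul _).mul
    (Differentiable.fun_finsetProd fun P hP => ((differentiable_id.const_cpow
      (n0 _ _ (hS P hP))).const_mul _).const_sub _)).mul
    ((((differentiable_neg.const_cpow (n0 _ _ c0)).const_mul _).const_mul _).const_sub _)

theorem av_fin (hB : Base ι J Ω) : {P : Ideal (𝓞 M) | Av ι J P}.Finite := by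
  obtain ⟨-, q2, -⟩ := vaq0 K ι J Ω hB M
  exact (Ideal.finite_minimalPrimes_of_isNoetherianRing _
    (Qm ι J M 1)).subset fun P hP => ⟨⟨((q2 P).1 hP).1.isPrime, ((q2 P).1 hP).2⟩,
      fun P' a e => ((Ring.DimensionLEOne.maximalOfPrime (fun e => Q_ne 1 (le_bot_iff.1 (e ▸ a.2)))
        a.1).eq_of_le ((q2 P).1 hP).1.ne_top e).ge⟩

theorem cp_F (h : Lc ι J k f F a) {I : Ideal (𝓞 M)} (p : Pv ι J I) : I ⊔ F = ⊤ := by
  by_contra n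
  obtain ⟨P, m, l⟩ := Ideal.exists_le_maximal _ n
  obtain ⟨s, s1, s2⟩ := p
  exact (h.av P m (Ideal.dvd_iff_le.2 (le_sup_right.trans l))).2 ⟨s, s1, l (Ideal.mem_sup_left s2)⟩

theorem a_nm (hB : Base ι J Ω) (h : Lc ι J k f F a) (pf : Pv ι J f) {I : Ideal (𝓞 M)}
    (c : I ⊔ f = ⊤) (p : Pv ι J I) : ‖ι (a I)‖ = 1 :=
  (hcn val K ι J Ω hB M k _ a (mul_ne_zero (pv_ne pf) h.ne) h.hc).2.2.1 I
    ⟨pv_ne p, by rw [Ideal.sup_mul_eq_of_coprime_left c, cp_F h p]⟩ p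

/-- the data attached to one character -/
theorem one (hB : Base ι J Ω) (p : Ps ι J ψ) (d0 : ∀ x, Fd ι J 0 (y₀ * x) ↔ Vi ι J x)
    (h : Lc ι J k f F a) (pf : Pv ι J f) (f1 : f ≠ ⊤) (sm : Sm c l) (hS : ∀ P, P ∈ S ↔ Av ι J P) :
    ∃ m0, ∀ m, m0 ≤ m → 0 < m → ∀ [Fintype (𝓞 M ⧸ Qm ι J M m)] (r : 𝓞 M ⧸ Qm ι J M m → 𝓞 M),
    (∀ a, Ideal.Quotient.mk _ (r a) = a) → Qm ι J M m ≤ F ∧ ∃ (ω : 𝓞 M → ℂ) (C : ℂ), Om F ω ∧
    (∀ y, y - 1 ∈ f → ω y = W J k a y) ∧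
    ‖ι C‖ = ‖(Ideal.absNorm F : ℂ_[3])‖ ^ k / √‖(Ideal.absNorm F : ℂ_[3])‖ ∧
    Iv ι J f ψ m (finrank K M) (fun i => y₀ * r i) k (fun i => gv S ω (r i)) ∧
    ∀ (β : Type) (B : β → Ideal (𝓞 M)) (j : Ideal (𝓞 M) → β) (x : Ideal (𝓞 M) → M),
    (∀ j, Cp f (B j) ∧ B j ⊔ Ideal.span {3} = ⊤) →
    (∀ I, Cp f I → E f (x I) (I * B (j I)) (Qm ι J M m)) → ∀ (i : ℕ) (s Z : ℂ),
    2 < (k : ℝ) + 2 * s.re → HasSum (fun I => if Cp f I then i * ((a (B (j I)))⁻¹ * xi c l I *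
      hv ι J ψ m (finrank K M) (fun i => y₀ * r i) (fun i => gv S ω (r i)) (x I) /
        J (Algebra.norm K (x I)) ^ k * (Ideal.absNorm I : ℂ) ^ (-s)) else 0) Z →
    Z = Gf (i * C) (Qm ι J M m) F S a c l s * ∑' I, a I * (Ideal.absNorm I : ℂ) ^ (-s) := by
  obtain ⟨⟨m0, g0⟩, ϖ, q, w0, w1, w2, w3, w4, w5⟩ := gen K ι J Ω hB M f F pf h.ne h.av
  obtain ⟨q1, q2, q3, -⟩ := vaq0 K ι J Ω hB M
  obtain ⟨ω, oz, o⟩ := ex_om h (cp_F h pf) f1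
  refine ⟨m0, fun m hm m1 _ r hr => ?_⟩
  have hQ := (g0 m hm).trans Ideal.mul_le_right
  have mem : ϖ ∈ F * q := w2 ▸ Ideal.mem_span_singleton_self ϖ
  obtain ⟨τ, t1, ht⟩ := ftw vaq0 K ι J Ω hB ψ p M y₀ d0 m F ω ϖ hQ oz w0 (Ideal.mul_le_left mem)
    w4 r hr
  refine ⟨hQ, ω, τ * a q * J (Algebra.norm K (ϖ : M)) ^ k, oz, o, ?_,
    iv p d0 h.hc oz o hQ (fun P hP => (g0 m hm).trans (Ideal.mul_le_left.trans
      ((q2 P).1 ((hS P).1 hP)).2)) hr _, fun β B j x b hx i s Z hs hZ => ?_⟩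
  · rw [map_mul, map_mul, map_pow, norm_mul, norm_mul, norm_pow, a_nm hB h pf (top_unique
      ((top1 w1).ge.trans (sup_le_sup_right ((Ideal.span_singleton_le_iff_mem _).2
        (Ideal.mul_le_right mem)) _))) w3, mul_one, tau_nm t1 w5]
  · have := (vz hB h.hc f1 sm oz o w1 w2 ht (by
      rw [q3]; exact Ideal.sup_pow_eq_top ((q1 f).1 pf)) (g0 m hm)
      (fun P hP => (q2 P).1 ((hS P).1 hP)) b hx hs).mul_left (i : ℂ)
    simp only [mul_ite, mul_zero] at this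
    rw [hZ.unique this, Gf]
    ring

theorem n2_gv {μ : Type} {r : μ → 𝓞 M} {k k' : ℕ} {ω ω' : 𝓞 M → ℂ} {ν : ℂ_[3]} {δ : ℝ}
    (d : 0 ≤ δ) (h : ∀ x : 𝓞 M, (∀ P ∈ S, x ∉ P) → N2 ι J m k k' (fun _ : Unit => y₀ * x)
      (fun _ => (ω x)⁻¹) (fun _ => (ω' x)⁻¹) ν δ) :
    N2 ι J m k k' (fun i => y₀ * r i) (fun i => gv S ω (r i)) (fun i => gv S ω' (r i)) ν δ := by
  intro i y' e
  simp only [gv]
  split_ifs with t
  · exact h _ t () y' e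
  · simpa using d

theorem ne_one (hB : Base ι J Ω) (h : HC J k f a) (k2 : k ≠ 2) {P : Ideal (𝓞 M)} (p0 : P ≠ ⊥)
    (p1 : P ≠ ⊤) : Ideal.absNorm P * a P ≠ 1 := fun e => by
  have n : (1 : ℝ) < Ideal.absNorm P := by
    have := mt Ideal.absNorm_eq_zero_iff.1 p0
    have := mt Ideal.absNorm_eq_one_iff.1 p1
    exact_mod_cast (by omega : 1 < Ideal.absNorm P)
  have := congrArg (‖·‖) e
  simp only [norm_mul, Complex.norm_natCast, norm_one] at this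
  rw [h.norm hB.two hB.im (right_ne_zero_of_mul_eq_one e), ← Real.rpow_one_add' (by linarith)
    (fun z => k2 (by exact_mod_cast (by linarith : (k : ℝ) = 2)))] at this
  have := (Real.rpow_right_inj (by linarith) n.ne').1 (this.trans (Real.rpow_zero _).symm)
  exact k2 (by exact_mod_cast (by linarith : (k : ℝ) = 2))

theorem fin_Q (m : ℕ) : Finite (𝓞 M ⧸ Qm ι J M m) :=
  (Ideal.absNorm_ne_zero_iff _).1 (mt Ideal.absNorm_eq_zero_iff.1 (Q_ne m))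

theorem acx0 (idl : IDL2) : ACX := by
  intro K _ _ ι J Ω hB M _ _ _ n b vb c l sm k f F a k0 k2 pf fl hw h
  obtain rfl : finrank K M = n := by simpa using finrank_eq_card_basis b
  obtain ⟨Ωp, ψ, -, p, idl⟩ := idl K ι J Ω hB
  obtain ⟨y₀, -, d1, -⟩ := dua K ι J Ω hB M _ b vb
  have d0 : ∀ x, Fd ι J 0 (y₀ * x) ↔ Vi ι J x := fun x => by simpa using d1 0 x
  have f1 : f ≠ ⊤ := fun e => hw.elim fun w k => k.1.ne_top (top_unique (e ▸ k.2.1))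
  have fin := av_fin (M := M) hB
  obtain ⟨m, h1⟩ := one hB p d0 h pf f1 sm fun _ => fin.mem_toFinset
  obtain ⟨i, β, _, B, j, x, i0, -, -, hb, hx, idl⟩ := idl M _ b vb c l sm f pf fl hw (m + 1)
  have := @Fintype.ofFinite _ (fin_Q (ι := ι) (J := J) (M := M) (m + 1))
  obtain ⟨r, hr⟩ := (Ideal.Quotient.mk_surjective (I := Qm ι J M (m + 1))).hasRightInverse
  obtain ⟨-, ω, C, -, -, c1, v1, e1⟩ := h1 _ m.le_succ m.succ_pos r hr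
  obtain ⟨Z, z1, -⟩ := idl _ (fun i => y₀ * r i) fun i => (d0 _).2 (Vi_of ι J _)
  obtain ⟨z2, z3⟩ := z1 _ k (fun j => (a (B j))⁻¹) v1 k0
  have k1 : (1 : ℝ) ≤ k := Nat.one_le_cast.2 k0
  have c0 : c ≠ ⊥ := fun e => sm.1.ne_zero (by rw [← sm.2.2.1, e, Ideal.absNorm_bot])
  have s0 : ∀ P ∈ fin.toFinset, P ≠ ⊥ := fun P hP e => Q_ne 1 (le_bot_iff.1 (e ▸
    (((vaq0 K ι J Ω hB M).2.1 P).1 (fin.mem_toFinset.1 hP)).2))
  have g0 : Gf (i * C) (Qm ι J M (m + 1)) F fin.toFinset a c l 0 ≠ 0 := by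
    rw [Gf_zero]
    refine mul_ne_zero (mul_ne_zero (mul_ne_zero (Nat.cast_ne_zero.2 i0.ne') fun e => ?_)
      (prod_ne_zero_iff.2 fun P hP e => ne_one hB h.hc k2 (s0 P hP) (fin.mem_toFinset.1 hP).1.ne_top
        (inv_eq_one.1 (sub_eq_zero.1 e).symm))) fun e => ne_one hB h.hc k2 c0
          (fun t => sm.1.ne_one (by rw [← sm.2.2.1, t, Ideal.absNorm_top]))
          (sm.2.2.1.symm ▸ (sub_eq_zero.1 e).symm)
    have : 0 < ‖(Ideal.absNorm F : ℂ_[3])‖ := by simp [Ideal.absNorm_eq_zero_iff, h.ne]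
    rw [e, map_zero, norm_zero] at c1
    exact c1.not_lt (by positivity)
  exact ⟨_, 1 / 2, by norm_num, _, _, z2.mono fun s t => by
      have : -(1 / 2 : ℝ) < s.re := t
      show (0 : ℝ) < _
      linarith, (Gf_diff (Q_ne _) h.ne c0 s0).differentiableOn, g0, (mul_div_cancel₀ _ g0).symm,
    fun s t => e1 β B j x hb hx i s _ (by linarith) (z3 s (by linarith))⟩

theorem cong0 (idl : IDL2) : CONG := by
  intro K _ _ ι J Ω hB M _ _ _ n b vb c l sm k₁ k₂ f F₁ F₂ a₁ a₂ z δ k1 k3 pf fl tf un hw h₁ h₂ hδ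
    ac lt lt'
  obtain rfl : finrank K M = n := by simpa using finrank_eq_card_basis b
  obtain ⟨Ωp, ψ, hΩ, p, idl⟩ := idl K ι J Ω hB
  obtain ⟨y₀, y0, d1, d2⟩ := dua K ι J Ω hB M _ b vb
  have d0 : ∀ x, Fd ι J 0 (y₀ * x) ↔ Vi ι J x := fun x => by simpa using d1 0 x
  have f1 : f ≠ ⊤ := fun e => hw.elim fun w k => k.1.ne_top (top_unique (e ▸ k.2.1))
  have fin := av_fin (M := M) hB
  obtain ⟨m₁, h1⟩ := one hB p d0 h₁ pf f1 sm fun _ => fin.mem_toFinset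
  obtain ⟨m₂, h2⟩ := one hB p d0 h₂ pf f1 sm fun _ => fin.mem_toFinset
  obtain ⟨m, m0, m1, m2⟩ : ∃ m, 0 < m ∧ m₁ ≤ m ∧ m₂ ≤ m := ⟨m₁ + m₂ + 1, by omega, by omega, by omega⟩
  obtain ⟨i, β, _, B, j, x, -, -, i1, hb, hx, idl⟩ := idl M _ b vb c l sm f pf fl hw m
  obtain rfl := i1 tf un
  have := @Fintype.ofFinite _ (fin_Q (ι := ι) (J := J) (M := M) m)
  obtain ⟨r, hr⟩ := (Ideal.Quotient.mk_surjective (I := Qm ι J M m)).hasRightInverse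
  obtain ⟨Q1, ω₁, C₁, o1, w1, c1, v1, e1⟩ := h1 _ m1 m0 r hr
  obtain ⟨Q2, ω₂, C₂, o2, w2, c2, v2, e2⟩ := h2 _ m2 m0 r hr
  obtain ⟨Z, z1, z2⟩ := idl _ (fun i => y₀ * r i) fun i => (d0 _).2 (Vi_of ι J _)
  have k2 : 0 < k₂ := by omega
  have k1' : (1 : ℝ) ≤ k₁ := Nat.one_le_cast.2 k1
  have k3' : (2 : ℝ) < k₂ + 2 * (0 : ℂ).re := by
    simpa using (by exact_mod_cast k3 : (2 : ℝ) < k₂)
  obtain ⟨q1, q2, -⟩ := vaq0 K ι J Ω hB M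
  have c0 : c ≠ ⊥ := fun e => sm.1.ne_zero (by rw [← sm.2.2.1, e, Ideal.absNorm_bot])
  have s0 : ∀ P ∈ fin.toFinset, P ≠ ⊥ := fun P hP e => Q_ne 1 (le_bot_iff.1 (e ▸
    ((q2 P).1 (fin.mem_toFinset.1 hP)).2))
  obtain ⟨z3, z4⟩ := z1 _ k₁ (fun j => (a₁ (B j))⁻¹) v1 k1
  have a1 := ac0 ac k1 z3 (Gf_diff (C := (1 : ℕ) * C₁) (l := l) (a := a₁) (Q_ne (ι := ι) (J := J) m)
    h₁.ne c0 s0) fun s t => e1 β B j x hb hx 1 s _ (by linarith) (z4 s (by linarith))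
  have a2 := e2 β B j x hb hx 1 0 _ k3' ((z1 _ k₂ (fun j => (a₂ (B j))⁻¹) v2 k2).2 0 k3')
  simp only [Gf_zero, Nat.cast_one, one_mul, neg_zero, Complex.cpow_zero, mul_one] at a1 a2
  have δ0 : 0 ≤ δ := (norm_nonneg _).trans (hδ ⊤ pv_top)
  have dp : 0 < dv ι J b := (norm_nonneg _).lt_of_ne fun e => zero_ne_one (by
    rw [← d2, dv, ← e, mul_zero])
  have pB : ∀ j, Pv ι J (B j) := fun j => (q1 _).2 (sup_comm (B j) _ ▸ cop (hb j).2 1)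
  have b1 := fun j => a_nm hB h₁ pf (hb j).1.2 (pB j)
  have b2 := fun j => a_nm hB h₂ pf (hb j).1.2 (pB j)
  have un : ∀ x : 𝓞 M, (∀ P ∈ fin.toFinset, x ∉ P) → ∀ _ : Unit,
      ‖ι (J (Algebra.norm K (x : M)))‖ = 1 := fun x t _ =>
    nm_one val vaq0 hB fun P hP => t P (fin.mem_toFinset.2 hP)
  have n1 := n2_gv (r := r) (mul_nonneg δ0 (pow_nonneg (norm_nonneg _) _)) fun x t =>
    n2_two hB y0 d1 m0 pf Q1 Q2 o1 o2 k1 k2 w1 w2 hδ (r := fun _ => x) (un x t)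
  have n2 := n2_gv (r := r) (ω := ω₁) (ω' := ω₁) (pow_nonneg (norm_nonneg _) _) fun x t =>
    n2_one hB y0 d1 m0 (r := fun _ => x) (un x t) (g := fun _ => (ω₁ x)⁻¹) (fun _ => by
      rw [map_inv₀, norm_inv, o1.unit hB Q1 (un x t ()), inv_one]) k₁
  have fz := z2 _ _ k₂ k₁ (fun j => (a₂ (B j))⁻¹) (fun j => (a₁ (B j))⁻¹) _ _ _ v2 v1 k2 k1
    (mul_nonneg δ0 (pow_nonneg (norm_nonneg _) _)) (pow_nonneg (norm_nonneg _) _)
    (fun j => by rw [map_inv₀, norm_inv, b2, inv_one])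
    (fun j => wt_le ((map_ne_zero ι).2 (nne y0)) (b1 j) (b2 j) (hδ _ (pB j)) k₁ k₂) n1 n2
  have p2 : ‖ι (∏ P ∈ fin.toFinset, (1 - (Ideal.absNorm P * a₂ P)⁻¹))‖ = 1 := by
    rw [map_prod, norm_prod]
    refine prod_eq_one fun P hP => ?_
    by_cases e : a₂ P = 0
    · simp [e]
    · obtain ⟨p1, p2⟩ := (hcn val K ι J Ω hB M k₂ _ a₂ (mul_ne_zero (pv_ne pf) h₂.ne) h₂.hc).2.2.2 P
        ((hc_ne h₂.hc).1 e) (fin.mem_toFinset.1 hP)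
      exact eul_one (by omega) p1 p2
  rw [← fin.coe_toFinset, finprod_mem_coe_finset, mul_assoc]
  refine fin_alg hΩ dp d2 k1 k2 (δ0.trans_lt lt) ?_ ?_ fz lt'
  · rw [a1, map_mul, map_mul, map_mul, norm_mul, norm_mul, norm_mul, c1, sm_eq (hδ c (pv_c sm)) lt,
      map_prod, norm_prod]
    ring
  · rw [a2, map_mul, map_mul, map_mul, norm_mul, norm_mul, norm_mul, c2, p2]
    ring

end Vale.Agent.P014Y.C.Cg
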