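import Vale.Agent.P014Y.C.Cg.Om
import Vale.Agent.P014Y.C.As.Id2

/-!
# P014 Y, C, block CG: the estimates on the discs
-/

set_option linter.unusedSectionVars false

open NumberField Module Filter Topology
open scoped Classical

noncomputable section

namespace Vale.Agent.P014Y.C.Cg

open As

variable {K : Type} [Field K] [NumberField K] {ι : ℂ →+* ℂ_[3]} {J : K →+* ℂ} {Ω : ℝ}
  {M : Type} [Field M] [NumberField M] [Algebra K M] {f F F₁ F₂ : Ideal (𝓞 M)} {m : ℕ} {y₀ : M}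

theorem n3_lt : ‖(3 : ℂ_[3])‖ < 1 := by rw [n_two]; norm_num

theorem vi_3 (p : ℕ) : Vi ι J ((3 : M) ^ p) := by
  have := Vi_of ι J (3 ^ p : 𝓞 M)
  rwa [RingOfIntegers.coe_eq_algebraMap, map_pow, map_ofNat] at this

theorem vi_lev {x : M} (p : ℕ) (h : Vi ι J (x / 3 ^ (p + m))) : Vi ι J (x / 3 ^ m) := by
  have := Vi_mul (vi_3 p) h
  rwa [show (3 : M) ^ p * (x / 3 ^ (p + m)) = x / 3 ^ m by field_simp; ring] at this

/-- a bound at the integers which are `1` modulo `f` passes to the limit -/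
theorem lim2 (hB : Base ι J Ω) (pf : Pv ι J f) {z : M} (hz : Vi ι J z) {A B : ℂ_[3]} {k k' : ℕ}
    {δ : ℝ} (h : ∀ x : 𝓞 M, x - 1 ∈ f → Vi ι J ((x - z) / 3 ^ m) →
      ‖A * ι (J (Algebra.norm K (x : M))) ^ k - B * ι (J (Algebra.norm K (x : M))) ^ k'‖ ≤ δ) :
    ‖A * ι (J (Algebra.norm K z)) ^ k - B * ι (J (Algebra.norm K z)) ^ k'‖ ≤ δ := by
  obtain ⟨-, -, v3, v4, -⟩ := (val K ι J Ω hB).2.2 M
  choose x x1 x2 using fun p => v4 f z (p + m) pf hz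
  have tx : Tendsto (fun p => ι (J (Algebra.norm K (x p : M)))) atTop
      (𝓝 (ι (J (Algebra.norm K z)))) :=
    tendsto_iff_norm_sub_tendsto_zero.2 (squeeze_zero (fun _ => norm_nonneg _)
      (fun p => v3 _ _ _ hz (x2 p))
      ((tendsto_add_atTop_iff_nat m).2 (tendsto_pow_atTop_nhds_zero_of_lt_one (norm_nonneg _) n3_lt)))
  exact le_of_tendsto' (((tx.pow _).const_mul A).sub ((tx.pow _).const_mul B)).norm fun p =>
    h _ (x1 p) (vi_lev p (x2 p))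

/-- points of a disc -/
theorem disc (hB : Base ι J Ω) (y0 : y₀ ≠ 0)
    (d1 : ∀ (m : ℕ) (x : M), Fd ι J m (3 ^ m * y₀ * x) ↔ Vi ι J x) (m0 : 0 < m) {r : 𝓞 M}
    (hr : ‖ι (J (Algebra.norm K (r : M)))‖ = 1) {y' : M} (e : Fd ι J m (y' - y₀ * r)) :
    ∃ t, y' = y₀ * t ∧ Vi ι J t ∧ Vi ι J ((t - r) / 3 ^ m) ∧ ‖ι (J (Algebra.norm K t))‖ = 1 := by
  obtain ⟨-, -, v3, -⟩ := (val K ι J Ω hB).2.2 M
  have a : Vi ι J ((y' / y₀ - r) / 3 ^ m) := (d1 m _).1 (by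
    rwa [show 3 ^ m * y₀ * ((y' / y₀ - r) / 3 ^ m) = y' - y₀ * r by field_simp])
  refine ⟨_, (mul_div_cancel₀ _ y0).symm, ?_, a, ?_⟩
  · have := Vi_add (Vi_of ι J r) (Vi_mul (vi_3 m) a)
    rwa [mul_div_cancel₀ _ (pow_ne_zero _ three_ne_zero), add_sub_cancel] at this
  · refine (ult ?_).trans hr
    rw [norm_sub_rev, hr]
    exact (v3 _ _ m (Vi_of ι J _) a).trans_lt (pow_lt_one₀ (norm_nonneg _) n3_lt m0.ne')

theorem Om.unit (hB : Base ι J Ω) {ω : 𝓞 M → ℂ} (h : Om F ω) (hF : Qm ι J M m ≤ F) {r : 𝓞 M}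
    (hr : ‖ι (J (Algebra.norm K (r : M)))‖ = 1) : ‖ι (ω r)‖ = 1 := by
  obtain ⟨q1, -, q3, -⟩ := vaq0 K ι J Ω hB M
  have := (q1 _).1 ((((val K ι J Ω hB).2.2 M).2.2.2.2 r).2 hr)
  refine h.nm fun e => (h.zero r).1 e (top_unique ((Ideal.sup_pow_eq_top (n := m) this).ge.trans
    (sup_le_sup_left (q3 m ▸ hF) _)))

theorem n2_one (hB : Base ι J Ω) (y0 : y₀ ≠ 0)
    (d1 : ∀ (m : ℕ) (x : M), Fd ι J m (3 ^ m * y₀ * x) ↔ Vi ι J x) (m0 : 0 < m) {μ : Type}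
    {r : μ → 𝓞 M} (hr : ∀ i, ‖ι (J (Algebra.norm K (r i : M)))‖ = 1) {g : μ → ℂ}
    (hg : ∀ i, ‖ι (g i)‖ ≤ 1) (k : ℕ) :
    N2 ι J m k k (fun i => y₀ * r i) g g 0 (‖ι (J (Algebra.norm K y₀))‖ ^ (k - 1)) := by
  intro i y' e
  obtain ⟨t, rfl, -, -, t1⟩ := disc hB y0 d1 m0 (hr i) e
  rw [zero_mul, sub_zero, norm_mul, norm_pow, map_mul, map_mul, map_mul, norm_mul, t1, mul_one]
  exact mul_le_of_le_one_left (by positivity) (hg i)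

theorem n2_two (hB : Base ι J Ω) (y0 : y₀ ≠ 0)
    (d1 : ∀ (m : ℕ) (x : M), Fd ι J m (3 ^ m * y₀ * x) ↔ Vi ι J x) (m0 : 0 < m) (pf : Pv ι J f)
    (h1 : Qm ι J M m ≤ F₁) (h2 : Qm ι J M m ≤ F₂) {ω₁ ω₂ : 𝓞 M → ℂ} (o1 : Om F₁ ω₁)
    (o2 : Om F₂ ω₂) {k₁ k₂ : ℕ} (k1 : 0 < k₁) (k2 : 0 < k₂) {a₁ a₂ : Ideal (𝓞 M) → ℂ}
    (w1 : ∀ y, y - 1 ∈ f → ω₁ y = W J k₁ a₁ y) (w2 : ∀ y, y - 1 ∈ f → ω₂ y = W J k₂ a₂ y) {δ : ℝ}
    (hδ : ∀ I, Pv ι J I → ‖ι (a₁ I - a₂ I)‖ ≤ δ) {μ : Type} {r : μ → 𝓞 M}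
    (hr : ∀ i, ‖ι (J (Algebra.norm K (r i : M)))‖ = 1) :
    N2 ι J m k₂ k₁ (fun i => y₀ * r i) (fun i => (ω₂ (r i))⁻¹) (fun i => (ω₁ (r i))⁻¹)
      (ι (J (Algebra.norm K y₀)) ^ (k₂ - 1) / ι (J (Algebra.norm K y₀)) ^ (k₁ - 1))
      (δ * ‖ι (J (Algebra.norm K y₀))‖ ^ (k₂ - 1)) := by
  intro i y' e
  obtain ⟨t, rfl, t0, t1, t2⟩ := disc hB y0 d1 m0 (hr i) e
  obtain ⟨-, -, v3, -, v5⟩ := (val K ι J Ω hB).2.2 M
  have N0 : ι (J (Algebra.norm K y₀)) ≠ 0 := (map_ne_zero ι).2 (nne y0)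
  have := lim2 (m := m) hB pf t0 (A := ι (ω₂ (r i))⁻¹) (B := ι (ω₁ (r i))⁻¹) (k := k₂ - 1)
    (k' := k₁ - 1) (δ := δ) fun x x1 x2 => by
      have x3 : x - r i ∈ Qm ι J M m := by
        have := Vi_add x2 t1
        rw [← add_div, sub_add_sub_cancel] at this
        show Vi ι J (((x - r i : 𝓞 M) : M) / 3 ^ m)
        push_cast
        exact this
      have x4 : ‖ι (J (Algebra.norm K (x : M)))‖ = 1 := (ult (by
        rw [norm_sub_rev, t2]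
        exact (v3 _ _ m t0 x2).trans_lt (pow_lt_one₀ (norm_nonneg _) n3_lt m0.ne'))).trans t2
      have e1 := (o1.per _ _ (h1 x3)).symm.trans (w1 x x1)
      have e2 := (o2.per _ _ (h2 x3)).symm.trans (w2 x x1)
      have u1 := o1.unit hB h1 (hr i)
      have u2 := o2.unit hB h2 (hr i)
      have := hδ _ ((v5 x).2 x4)
      obtain ⟨k₁, rfl⟩ := Nat.exists_eq_add_of_le' k1
      obtain ⟨k₂, rfl⟩ := Nat.exists_eq_add_of_le' k2
      rw [e1, W, map_mul, map_pow, norm_mul, norm_pow, x4, one_pow, mul_one] at u1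
      rw [e2, W, map_mul, map_pow, norm_mul, norm_pow, x4, one_pow, mul_one] at u2
      rw [map_sub] at this
      rw [e1, e2, W, W]
      simp only [map_inv₀, map_mul, map_pow, Nat.succ_eq_add_one, Nat.add_sub_cancel]
      generalize ι (J (Algebra.norm K (x : M))) = N at x4 ⊢
      generalize ι (a₁ (Ideal.span {x})) = A at u1 this ⊢
      generalize ι (a₂ (Ideal.span {x})) = B at u2 this ⊢
      have n1 : N ≠ 0 := norm_ne_zero_iff.1 (x4 ▸ one_ne_zero)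
      have n2 : A ≠ 0 := norm_ne_zero_iff.1 (u1 ▸ one_ne_zero)
      have n3 : B ≠ 0 := norm_ne_zero_iff.1 (u2 ▸ one_ne_zero)
      rw [show (B * N ^ (k₂ + 1))⁻¹ * N ^ k₂ - (A * N ^ (k₁ + 1))⁻¹ * N ^ k₁ =
        (A - B) / (A * B * N) by field_simp; ring, norm_div, norm_mul, norm_mul, u1, u2, x4]
      simpa using this
  have := mul_le_mul_of_nonneg_right this (norm_nonneg (ι (J (Algebra.norm K y₀)) ^ (k₂ - 1)))
  rw [← norm_mul, norm_pow] at this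
  refine (congrArg _ ?_).trans_le this
  simp only [map_mul, mul_pow]
  field_simp

end Vale.Agent.P014Y.C.Cg
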