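import Vale.Agent.P014Y.C.Cg.St

/-!
# P014 Y, C, block CG: the local component above `v` of a Hecke character
-/

set_option linter.unusedSectionVars false

open NumberField Module
open scoped Classical

noncomputable section

namespace Vale.Agent.P014Y.C.Cg

open As

variable {K : Type} [Field K] [NumberField K] {ι : ℂ →+* ℂ_[3]} {J : K →+* ℂ}
  {M : Type} [Field M] [NumberField M] [Algebra K M]

theorem crt {f Q : Ideal (𝓞 M)} (h : f ⊔ Q = ⊤) (x : 𝓞 M) : ∃ y, y - 1 ∈ f ∧ y - x ∈ Q := by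
  obtain ⟨a, ha, b, hb, e⟩ := Submodule.mem_sup.1 ((Ideal.eq_top_iff_one _).1 h)
  refine ⟨b + a * x, ?_, ?_⟩
  · rw [show b + a * x - 1 = a * (x - 1) by linear_combination e]
    exact f.mul_mem_right _ ha
  · rw [show b + a * x - x = b * (1 - x) by linear_combination x * e]
    exact Q.mul_mem_right _ hb

theorem mul1 {f : Ideal (𝓞 M)} {x y : 𝓞 M} (hx : x - 1 ∈ f) (hy : y - 1 ∈ f) :
    x * y - 1 ∈ f := by
  rw [show x * y - 1 = (x - 1) * y + (y - 1) by ring]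
  exact f.add_mem (f.mul_mem_right _ hx) hy

theorem ne0 {f : Ideal (𝓞 M)} (f1 : f ≠ ⊤) {x : 𝓞 M} (hx : x - 1 ∈ f) : x ≠ 0 := by
  rintro rfl
  exact f1 ((Ideal.eq_top_iff_one _).2 (by simpa using hx))

theorem top1 {f : Ideal (𝓞 M)} {x : 𝓞 M} (hx : x - 1 ∈ f) : Ideal.span {x} ⊔ f = ⊤ := by
  rw [Ideal.eq_top_iff_one]
  simpa using (Ideal.span {x} ⊔ f).sub_mem
    (Ideal.mem_sup_left (Ideal.mem_span_singleton_self x)) (Ideal.mem_sup_right hx)

theorem nne {x : M} (hx : x ≠ 0) : J (Algebra.norm K x) ≠ 0 := by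
  rw [map_ne_zero]
  exact Algebra.norm_ne_zero_iff.2 hx

variable (J) in
/-- the local component -/
def W (k : ℕ) (a : Ideal (𝓞 M) → ℂ) (y : 𝓞 M) : ℂ :=
  a (Ideal.span {y}) * J (Algebra.norm K (y : M)) ^ k

variable {k : ℕ} {f F : Ideal (𝓞 M)} {a : Ideal (𝓞 M) → ℂ}

theorem W_mul (h : HC J k f a) (y y' : 𝓞 M) : W J k a (y * y') = W J k a y * W J k a y' := by
  unfold W
  rw [← Ideal.span_singleton_mul_span_singleton, h.mul]
  push_cast
  rw [map_mul, map_mul]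
  ring

theorem W_one' (h : HC J k f a) {y : 𝓞 M} (y0 : y ≠ 0) (h1 : y - 1 ∈ f) : W J k a y = 1 := by
  unfold W
  rw [h.prn y y0 h1, ← mul_pow, inv_mul_cancel₀ (nne (by exact_mod_cast y0)), one_pow]

theorem W_one (h : HC J k (f * F) a) (hf : f ⊔ F = ⊤) (f1 : f ≠ ⊤) {y : 𝓞 M}
    (h1 : y - 1 ∈ f) (h2 : y - 1 ∈ F) : W J k a y = 1 :=
  W_one' h (ne0 f1 h1) (by rw [Ideal.mul_eq_inf_of_coprime hf]; exact ⟨h1, h2⟩)

theorem W_zero (h : HC J k (f * F) a) (f1 : f ≠ ⊤) {y : 𝓞 M} (h1 : y - 1 ∈ f) :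
    W J k a y = 0 ↔ Ideal.span {y} ⊔ F ≠ ⊤ := by
  have y0 := ne0 f1 h1
  unfold W
  rw [mul_eq_zero, or_iff_left (pow_ne_zero _ (nne (by exact_mod_cast y0))), h.zero,
    or_iff_right (by simpa using y0), Ideal.sup_mul_eq_of_coprime_left (top1 h1)]

theorem sup_eq {y y' : 𝓞 M} (h : y - y' ∈ F) : Ideal.span {y} ⊔ F = Ideal.span {y'} ⊔ F := by
  have k : ∀ y y' : 𝓞 M, y - y' ∈ F → Ideal.span {y} ⊔ F ≤ Ideal.span {y'} ⊔ F := fun y y' h =>
    sup_le ((Ideal.span_singleton_le_iff_mem _).2 (by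
      simpa using (Ideal.span {y'} ⊔ F).add_mem (Ideal.mem_sup_right h)
        (Ideal.mem_sup_left (Ideal.mem_span_singleton_self y')))) le_sup_right
  exact (k _ _ h).antisymm (k _ _ (by simpa using F.neg_mem h))

theorem W_congr (h : HC J k (f * F) a) (hf : f ⊔ F = ⊤) (f1 : f ≠ ⊤) {y y' : 𝓞 M}
    (h1 : y - 1 ∈ f) (h1' : y' - 1 ∈ f) (h3 : y - y' ∈ F) : W J k a y = W J k a y' := by
  by_cases e : Ideal.span {y} ⊔ F = ⊤
  · obtain ⟨p, hp, q, hq, e1⟩ := Submodule.mem_sup.1 ((Ideal.eq_top_iff_one _).1 e)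
    obtain ⟨u, rfl⟩ := Ideal.mem_span_singleton'.1 hp
    obtain ⟨t, t1, t2⟩ := crt hf u
    have m : t * y - 1 ∈ F := by
      rw [show t * y - 1 = (t - u) * y - q by linear_combination e1]
      exact F.sub_mem (F.mul_mem_right _ t2) hq
    have e1 := W_one h hf f1 (mul1 t1 h1) m
    have e2 := W_one h hf f1 (mul1 t1 h1') (by
      rw [show t * y' - 1 = t * y - 1 - t * (y - y') by ring]
      exact F.sub_mem m (F.mul_mem_left _ h3))
    rw [W_mul h] at e1 e2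
    exact mul_left_cancel₀ (left_ne_zero_of_mul_eq_one e1) (e1.trans e2.symm)
  · rw [(W_zero h f1 h1).2 e, (W_zero h f1 h1').2 (sup_eq h3 ▸ e)]

/-- the local component as a character modulo `F` -/
theorem ex_om (h : Lc ι J k f F a) (hf : f ⊔ F = ⊤) (f1 : f ≠ ⊤) :
    ∃ ω : 𝓞 M → ℂ, Om F ω ∧ ∀ y, y - 1 ∈ f → ω y = W J k a y := by
  choose t t1 t2 using crt hf
  have o : ∀ y, y - 1 ∈ f → W J k a (t y) = W J k a y := fun y h1 =>
    W_congr h.hc hf f1 (t1 y) h1 (t2 y)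
  refine ⟨fun x => W J k a (t x), ⟨W_one h.hc hf f1 (t1 1) (t2 1), fun x y => ?_,
    fun x y hy => ?_, fun x => ?_, h.mu.imp fun j hj x => (hj _ (t1 x)).imp_left fun e =>
      mul_eq_zero_of_left e _,
    fun P F' hP e => ?_⟩, o⟩
  · rw [← W_mul h.hc]
    refine W_congr h.hc hf f1 (t1 _) (mul1 (t1 x) (t1 y)) ?_
    rw [show t (x * y) - t x * t y = t (x * y) - x * y - (t x - x) * t y - x * (t y - y) by ring]
    exact F.sub_mem (F.sub_mem (t2 _) (F.mul_mem_right _ (t2 x))) (F.mul_mem_left _ (t2 y))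
  · refine W_congr h.hc hf f1 (t1 x) (t1 y) ?_
    rw [show t x - t y = t x - x + (x - y) - (t y - y) by ring]
    exact F.sub_mem (F.add_mem (t2 x) hy) (t2 y)
  · rw [W_zero h.hc f1 (t1 x), sup_eq (t2 x)]
  · obtain ⟨x, x1, x2, x3⟩ := h.pm P F' hP e
    refine ⟨x, Ideal.mul_le_right x1, x2, fun e => x3 ?_⟩
    rw [o x (Ideal.mul_le_left x1)] at e
    rw [inv_pow]
    exact eq_inv_of_mul_eq_one_left e

theorem Om.nm {R : Type} [CommRing R] {F : Ideal R} {ω : R → ℂ} (h : Om F ω) {x : R}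
    (e : ω x ≠ 0) : ‖ι (ω x)‖ = 1 := by
  obtain ⟨j, hj⟩ := h.mu
  have := congrArg (fun z => ‖ι z‖) ((hj x).resolve_left e)
  simp only [map_pow, norm_pow, map_one, norm_one] at this
  exact (pow_eq_one_iff_of_nonneg (norm_nonneg _) (by positivity)).1 this

theorem three_mem (m : ℕ) : (3 ^ m : 𝓞 M) ∈ Qm ι J M m := by
  show Vi ι J (((3 ^ m : 𝓞 M) : M) / 3 ^ m)
  rw [show ((3 ^ m : 𝓞 M) : M) = 3 ^ m by
    rw [RingOfIntegers.coe_eq_algebraMap, map_pow, map_ofNat], div_self (pow_ne_zero _ three_ne_zero)]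
  exact Vi_of ι J 1

theorem Q_ne (m : ℕ) : Qm ι J M m ≠ ⊥ := fun q =>
  pow_ne_zero m (by norm_num) (Ideal.mem_bot.1 (q ▸ three_mem (ι := ι) (J := J) m))

theorem cop {B : Ideal (𝓞 M)} (h : B ⊔ Ideal.span {3} = ⊤) (m : ℕ) : Qm ι J M m ⊔ B = ⊤ :=
  top_unique ((Ideal.sup_pow_eq_top (n := m) h).ge.trans (sup_le le_sup_right (by
    rw [Ideal.span_singleton_pow]
    exact ((Ideal.span_singleton_le_iff_mem _).2 (three_mem m)).trans le_sup_left)))

variable {I B R : Ideal (𝓞 M)} {x : M} {m : ℕ}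

theorem vi_iff (h : E f x (I * B) (Qm ι J M m)) (cp : IsCoprime (Qm ι J M m) B) :
    (∀ y ∈ R, Vi ι J (x * y)) ↔ Qm ι J M m ∣ I * R := by
  obtain ⟨y, z, -, -, -, z0, e, h⟩ := h
  have z1 : (z : M) ≠ 0 := RingOfIntegers.coe_ne_zero_iff.2 z0
  have k : ∀ u v : 𝓞 M, y * u = z * v → x * u = v := fun u v a => mul_left_cancel₀ z1 (by
    rw [← mul_assoc, mul_comm _ x, e]
    exact_mod_cast congrArg (algebraMap (𝓞 M) M) a)
  refine ⟨fun a => cp.dvd_of_dvd_mul_left (Ideal.dvd_iff_le.2 ?_), fun ⟨R', a⟩ t ht => ?_⟩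
  · rw [← mul_assoc, mul_comm B]
    refine Ideal.mul_le.2 fun u hu t ht => ?_
    obtain ⟨q, hq, b⟩ := Ideal.mem_span_singleton_mul.1
      (h ▸ Ideal.mem_span_singleton_mul.2 ⟨u, hu, rfl⟩)
    show Vi ι J (((u * t : 𝓞 M) : M) / 3 ^ m)
    rw [show ((u * t : 𝓞 M) : M) = u * t from map_mul _ _ _, ← k q u b,
      show x * q * t / 3 ^ m = x * t * (q / 3 ^ m) by ring]
    exact Vi_mul (a t ht) hq
  · have : Ideal.span {y} * R = Ideal.span {z} * (B * R') :=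
      mul_left_cancel₀ (a := Qm ι J M m) (Q_ne m)
        (by rw [← mul_assoc, mul_comm _ (Ideal.span {y}), ← h, mul_assoc, mul_right_comm, a]; ring)
    obtain ⟨q, -, b⟩ := Ideal.mem_span_singleton_mul.1
      (this ▸ Ideal.mem_span_singleton_mul.2 ⟨t, ht, rfl⟩)
    rw [k t q b.symm]
    exact Vi_of ι J q

theorem lift {G D' q : Ideal (𝓞 M)} {p : 𝓞 M} (h : E f x (D' * R * B) (G * D')) (D0 : D' ≠ ⊥)
    (e : Ideal.span {p} = G * q) (h1 : p - 1 ∈ f) :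
    x ≠ 0 ∧ ∃ x' : 𝓞 M, (x' : M) = x * p ∧ x' - 1 ∈ f ∧ Ideal.span {x'} = R * B * q := by
  obtain ⟨y, z, y1, z1, y0, z0, e1, e2⟩ := h
  have z0' : (z : M) ≠ 0 := by exact_mod_cast z0
  have e3 : Ideal.span {z} * (R * B * q) = Ideal.span {y * p} := by
    rw [← Ideal.span_singleton_mul_span_singleton, e]
    refine mul_left_cancel₀ D0 ?_
    rw [show D' * (Ideal.span {z} * (R * B * q)) = Ideal.span {z} * (D' * R * B) * q by ring, e2]
    ring
  obtain ⟨x', hx⟩ : z ∣ y * p := by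
    rw [← Ideal.mem_span_singleton, ← Ideal.span_singleton_le_iff_mem, ← e3]
    exact Ideal.mul_le_left
  refine ⟨?_, x', ?_, ?_, ?_⟩
  · rintro rfl
    exact y0 (by exact_mod_cast (e1.symm.trans (zero_mul _)))
  · apply mul_left_cancel₀ z0'
    have : (y : M) * p = z * x' := by exact_mod_cast hx
    rw [← this, ← e1]
    ring
  · rw [show x' - 1 = y * p - 1 - (z - 1) * x' by rw [hx]; ring]
    exact f.sub_mem (mul1 y1 h1) (f.mul_mem_right _ z1)
  · rw [hx, ← Ideal.span_singleton_mul_span_singleton] at e3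
    exact (mul_left_cancel₀ (by simpa using z0) e3).symm

end Vale.Agent.P014Y.C.Cg
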