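import Vale.Agent.P014Y.C.As.Fou

/-!
# P014 Y, C, block CG: the congruence for characters with arbitrary conductors at `v` (words, rows)
-/

open NumberField Module
open scoped Classical

noncomputable section

namespace Vale.Agent.P014Y.C.Cg

open As As.Fo

/-- Hecke character of modulus `f * F` whose conductor above `v` is `F` and whose local component
above `v` has values in the roots of unity of order `2 * 3 ^ j` -/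
structure Lc {K : Type} [Field K] [NumberField K] (ι : ℂ →+* ℂ_[3]) (J : K →+* ℂ)
    {M : Type} [Field M] [NumberField M] [Algebra K M] (k : ℕ) (f F : Ideal (𝓞 M))
    (a : Ideal (𝓞 M) → ℂ) : Prop where
  hc : HC J k (f * F) a
  ne : F ≠ ⊥
  av : ∀ P, P.IsMaximal → P ∣ F → Av ι J P
  pm : ∀ P F', P.IsMaximal → F = P * F' → ∃ x : 𝓞 M, x - 1 ∈ f * F' ∧ x ∉ P ∧
    a (Ideal.span {x}) ≠ (J (Algebra.norm K (x : M)))⁻¹ ^ k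
  mu : ∃ j : ℕ, ∀ x : 𝓞 M, x - 1 ∈ f → a (Ideal.span {x}) = 0 ∨
    (a (Ideal.span {x}) * J (Algebra.norm K (x : M)) ^ k) ^ (2 * 3 ^ j) = 1

/-- **export CONG**: weight `k₁` against weight `k₂` -/
def CONG : Prop := ∀ (K : Type) [Field K] [NumberField K] (ι : ℂ →+* ℂ_[3]) (J : K →+* ℂ) (Ω : ℝ),
  Base ι J Ω → ∀ (M : Type) [Field M] [NumberField M] [Algebra K M] (n : ℕ)
  (b : Basis (Fin n) K M), Vb ι J b → ∀ (c : Ideal (𝓞 M)) (l : ℕ), Sm c l →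
  ∀ (k₁ k₂ : ℕ) (f F₁ F₂ : Ideal (𝓞 M)) (a₁ a₂ : Ideal (𝓞 M) → ℂ) (z : ℂ) (δ : ℝ),
    0 < k₁ → 3 ≤ k₂ → Pv ι J f → f ⊔ Ideal.span {(l : 𝓞 M)} = ⊤ → TF f →
    (∀ u : (𝓞 M)ˣ, (u : 𝓞 M) - 1 ∈ f → Algebra.norm K ((u : 𝓞 M) : M) = 1) →
    (∃ w : Ideal (𝓞 M), w.IsMaximal ∧ f ≤ w ∧ 3 ∉ w) →
    Lc ι J k₁ f F₁ a₁ → Lc ι J k₂ f F₂ a₂ → (∀ I, Pv ι J I → ‖ι (a₁ I - a₂ I)‖ ≤ δ) → AC a₁ z →
    δ < ‖ι (1 - l * a₂ c)‖ → δ < ‖ι (1 - l * a₂ c)‖ *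
      (sc Ω (dv ι J b * ‖(Ideal.absNorm F₂ : ℂ_[3])‖) n k₂ * ‖ι (∑' I, a₂ I)‖) →
    sc Ω (dv ι J b * ‖(Ideal.absNorm F₁ : ℂ_[3])‖) n k₁ *
      (∏ᶠ P ∈ {P | Av ι J P}, ‖ι (1 - (Ideal.absNorm P * a₁ P)⁻¹)‖) * ‖ι z‖ =
      sc Ω (dv ι J b * ‖(Ideal.absNorm F₂ : ℂ_[3])‖) n k₂ * ‖ι (∑' I, a₂ I)‖

/-- primitive character modulo `F` with values in the roots of unity of order `2 * 3 ^ j` -/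
structure Om {R : Type} [CommRing R] (F : Ideal R) (ω : R → ℂ) : Prop where
  one : ω 1 = 1
  mul : ∀ x y, ω (x * y) = ω x * ω y
  per : ∀ x y, x - y ∈ F → ω x = ω y
  zero : ∀ x, ω x = 0 ↔ Ideal.span {x} ⊔ F ≠ ⊤
  mu : ∃ j : ℕ, ∀ x, ω x = 0 ∨ ω x ^ (2 * 3 ^ j) = 1
  pm : ∀ P F', P.IsMaximal → F = P * F' → ∃ x, x - 1 ∈ F' ∧ x ∉ P ∧ ω x ≠ 1

/-- row GAU: Gauss sums -/
def GAU : Prop := ∀ (ι : ℂ →+* ℂ_[3]) (M : Type) [Field M] [NumberField M] (F : Ideal (𝓞 M))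
  (ω χ : 𝓞 M → ℂ), F ≠ ⊥ → Om F ω → (∀ x y, χ (x + y) = χ x * χ y) →
  (∀ x, (∀ y, χ (x * y) = 1) ↔ x ∈ F) → (∃ j : ℕ, ∀ x, χ x ^ 3 ^ j = 1) →
  ∀ [Fintype (𝓞 M ⧸ F)] (r : 𝓞 M ⧸ F → 𝓞 M), (∀ a, Ideal.Quotient.mk F (r a) = a) →
  ∃ g : ℂ, ‖ι g‖ ^ 2 = ‖(Ideal.absNorm F : ℂ_[3])‖ ∧
    ∀ x, ∑ a, (ω (r a))⁻¹ * χ (x * r a) = ω x * g

/-- row GEN: a generator at `v` -/
def GEN : Prop := ∀ (K : Type) [Field K] [NumberField K] (ι : ℂ →+* ℂ_[3]) (J : K →+* ℂ) (Ω : ℝ),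
  Base ι J Ω → ∀ (M : Type) [Field M] [NumberField M] [Algebra K M] (f F : Ideal (𝓞 M)),
  Pv ι J f → F ≠ ⊥ → (∀ P, P.IsMaximal → P ∣ F → Av ι J P) →
  (∃ m0, ∀ m, m0 ≤ m → Qm ι J M m ≤ Qm ι J M 1 * F) ∧
  ∃ (ϖ : 𝓞 M) (q : Ideal (𝓞 M)), ϖ ≠ 0 ∧ ϖ - 1 ∈ f ∧ Ideal.span {ϖ} = F * q ∧ Pv ι J q ∧
    (∀ y ∈ F, Vi ι J ((y : M) / ϖ)) ∧
    ‖ι (J (Algebra.norm K (ϖ : M)))‖ = ‖(Ideal.absNorm F : ℂ_[3])‖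

/-- row FTW: the Fourier transform of a primitive character -/
def FTW : Prop := ∀ (K : Type) [Field K] [NumberField K] (ι : ℂ →+* ℂ_[3]) (J : K →+* ℂ) (Ω : ℝ),
  Base ι J Ω → ∀ ψ : AddChar K ℂ, Ps ι J ψ → ∀ (M : Type) [Field M] [NumberField M] [Algebra K M]
  (y₀ : M), (∀ x, Fd ι J 0 (y₀ * x) ↔ Vi ι J x) → ∀ (m : ℕ) (F : Ideal (𝓞 M)) (ω : 𝓞 M → ℂ)
  (ϖ : 𝓞 M), Qm ι J M m ≤ F → Om F ω → ϖ ≠ 0 → ϖ ∈ F → (∀ y ∈ F, Vi ι J ((y : M) / ϖ)) →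
  ∀ [Fintype (𝓞 M ⧸ Qm ι J M m)] (r : 𝓞 M ⧸ Qm ι J M m → 𝓞 M),
  (∀ a, Ideal.Quotient.mk _ (r a) = a) → ∃ τ : ℂ, ‖ι τ‖ ^ 2 * ‖(Ideal.absNorm F : ℂ_[3])‖ = 1 ∧
    ∀ (D : Ideal (𝓞 M)) (d : 𝓞 M), Qm ι J M m ≤ D * F → d ∈ D → d - 1 ∈ F →
    ∀ x : M, Vi ι J (3 ^ m * x) →
      ((¬ ∀ y ∈ D * F, Vi ι J (x * y)) →
        ∑ a, (if r a ∈ D then (ω (r a))⁻¹ * ch ψ y₀ x (r a) else 0) = 0) ∧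
      ∀ x' : 𝓞 M, (∀ y ∈ D * F, Vi ι J (x * y)) → (x' : M) = x * d * ϖ →
        ∑ a, (if r a ∈ D then (ω (r a))⁻¹ * ch ψ y₀ x (r a) else 0) =
          3 ^ (m * finrank K M) * (τ * ω x' / Ideal.absNorm D)

end Vale.Agent.P014Y.C.Cg
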