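import Vale.Agent.P014Y.C.Cg.Om
import Vale.Agent.P014Y.C.As.Id2

/-!
# P014 Y, C, block CG: the value of the series over ideals
-/

set_option linter.unusedSectionVars false

open NumberField Module Finset
open scoped Classical

noncomputable section

namespace Vale.Agent.P014Y.C.Cg

open As As.Fo As.Bd

variable {K : Type} [Field K] [NumberField K] {ι : ℂ →+* ℂ_[3]} {J : K →+* ℂ} {Ω : ℝ}
  {M : Type} [Field M] [NumberField M] [Algebra K M] {k m l : ℕ}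
  {f F D D' d' q R B c : Ideal (𝓞 M)} {a : Ideal (𝓞 M) → ℂ} {ω : 𝓞 M → ℂ} {d ϖ : 𝓞 M} {x : M}
  {ψ : AddChar K ℂ} {y₀ : M} {τ s : ℂ}

/-- one term -/
theorem pt (h : HC J k (f * F) a) (f1 : f ≠ ⊤) (o : ∀ y, y - 1 ∈ f → ω y = W J k a y)
    (hd : Ideal.span {d} = D * d') (d1 : d - 1 ∈ f * F) (w1 : ϖ - 1 ∈ f)
    (w2 : Ideal.span {ϖ} = F * q) (D0 : D' ≠ ⊥) (aB : a B ≠ 0)
    (hx : E f x (D' * R * B) (D * F * D')) : ∃ x' : 𝓞 M, (x' : M) = x * d * ϖ ∧
      (a B)⁻¹ * ω x' / J (Algebra.norm K x) ^ k =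
        a q * J (Algebra.norm K (ϖ : M)) ^ k * (a D)⁻¹ * a R := by
  have d2 : d - 1 ∈ f := Ideal.mul_le_left d1
  obtain ⟨x0, x', e1, e2, e3⟩ := lift (q := d' * q) (p := d * ϖ) hx D0 (by
    rw [← Ideal.span_singleton_mul_span_singleton, hd, w2]; ring) (mul1 d2 w1)
  have e4 : (x' : M) = x * d * ϖ := by rw [e1]; push_cast; ring
  refine ⟨x', e4, ?_⟩
  have e5 := W_one' h (ne0 f1 d2) d1
  have := nne (K := K) (J := J) x0
  rw [W, hd, h.mul, mul_assoc] at e5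
  rw [o _ e2, W, e3, e4, ← eq_inv_of_mul_eq_one_right e5, h.mul, h.mul, h.mul, map_mul, map_mul,
    map_mul, map_mul, mul_pow, mul_pow]
  field_simp

theorem summ (hB : Base ι J Ω) (h : HC J k f a) (hs : 2 < (k : ℝ) + 2 * s.re) :
    Summable fun I => a I * (Ideal.absNorm I : ℂ) ^ (-s) := by
  refine .of_norm_bounded (P004C.Al.sum_norm M (s := k / 2 + s.re) (by linarith)) fun I => ?_
  by_cases e : I = ⊥
  · simp only [e, (h.zero ⊥).2 (.inl rfl), zero_mul, norm_zero]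
    positivity
  · have p : 0 < Ideal.absNorm I := Nat.pos_of_ne_zero (by simpa [Ideal.absNorm_eq_zero_iff] using e)
    rw [norm_mul, Complex.norm_natCast_cpow_of_pos p, neg_add, Real.rpow_add (by exact_mod_cast p),
      Complex.neg_re]
    exact mul_le_mul_of_nonneg_right (h.le hB.two hB.im I) (by positivity)

theorem hs_xi (hB : Base ι J Ω) (h : HC J k f a) (c0 : c ≠ ⊥) (hs : 2 < (k : ℝ) + 2 * s.re) :
    HasSum (fun I => xi c l I * (a I * (Ideal.absNorm I : ℂ) ^ (-s)))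
      ((1 - l * (a c * (Ideal.absNorm c : ℂ) ^ (-s))) *
        ∑' I, a I * (Ideal.absNorm I : ℂ) ^ (-s)) := by
  have s0 := summ hB h hs
  have s1 : Summable fun I => xi c l I * (a I * (Ideal.absNorm I : ℂ) ^ (-s)) :=
    .of_norm_bounded (s0.norm.mul_left (1 + l : ℝ)) fun I => by
      rw [norm_mul]
      refine mul_le_mul_of_nonneg_right ?_ (norm_nonneg _)
      unfold xi
      split_ifs
      · simpa using norm_sub_le (1 : ℂ) l
      · simp
  convert s1.hasSum using 1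
  rw [(smooth' c0 _ s0).2]
  simp only [h.mul, map_mul, Nat.cast_mul, Complex.natCast_mul_natCast_cpow,
    mul_mul_mul_comm (a c) (a _), tsum_mul_left]
  ring

variable [Fintype (𝓞 M ⧸ Qm ι J M m)] {r : 𝓞 M ⧸ Qm ι J M m → 𝓞 M}

variable (ι J ψ y₀ m F ω ϖ r τ) in
/-- the output of the row on the Fourier transform -/
def Ft : Prop := ∀ (D : Ideal (𝓞 M)) (d : 𝓞 M), Qm ι J M m ≤ D * F → d ∈ D → d - 1 ∈ F →
  ∀ x : M, Vi ι J (3 ^ m * x) →
    ((¬ ∀ y ∈ D * F, Vi ι J (x * y)) →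
      ∑ a, (if r a ∈ D then (ω (r a))⁻¹ * ch ψ y₀ x (r a) else 0) = 0) ∧
    ∀ x' : 𝓞 M, (∀ y ∈ D * F, Vi ι J (x * y)) → (x' : M) = x * d * ϖ →
      ∑ a, (if r a ∈ D then (ω (r a))⁻¹ * ch ψ y₀ x (r a) else 0) =
        3 ^ (m * finrank K M) * (τ * ω x' / Ideal.absNorm D)

theorem vi_x {I : Ideal (𝓞 M)} (hx : E f x (I * B) (Qm ι J M m)) (hB : B ⊔ Ideal.span {3} = ⊤) :
    Vi ι J (3 ^ m * x) := by
  have := (vi_iff (R := Ideal.span {3 ^ m}) hx (Ideal.isCoprime_iff_sup_eq.2 (cop hB m))).2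
    (Dvd.dvd.mul_left (Ideal.dvd_span_singleton.2 (three_mem m)) _) _
    (Ideal.mem_span_singleton_self _)
  rwa [RingOfIntegers.coe_eq_algebraMap, map_pow, map_ofNat, mul_comm] at this

theorem hs_D (hB : Base ι J Ω) (h : HC J k (f * F) a) (f1 : f ≠ ⊤) (sm : Sm c l)
    (o : ∀ y, y - 1 ∈ f → ω y = W J k a y) (w1 : ϖ - 1 ∈ f) (w2 : Ideal.span {ϖ} = F * q)
    (ht : Ft ι J m F ω ϖ ψ y₀ τ r) (fQ : f ⊔ Qm ι J M m = ⊤) (hQ : Qm ι J M m ≤ D * F)
    (DF : D ⊔ F = ⊤) {β : Type} {B : β → Ideal (𝓞 M)} {j : Ideal (𝓞 M) → β}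
    {x : Ideal (𝓞 M) → M} (b : ∀ j, Cp f (B j) ∧ B j ⊔ Ideal.span {3} = ⊤)
    (hx : ∀ I, Cp f I → E f (x I) (I * B (j I)) (Qm ι J M m)) (hs : 2 < (k : ℝ) + 2 * s.re) :
    HasSum (fun I => if Cp f I then (a (B (j I)))⁻¹ * xi c l I *
      ((∑ a, if r a ∈ D then (ω (r a))⁻¹ * ch ψ y₀ (x I) (r a) else 0) / 3 ^ (m * finrank K M)) /
        J (Algebra.norm K (x I)) ^ k * (Ideal.absNorm I : ℂ) ^ (-s) else 0)
      (τ * a q * J (Algebra.norm K (ϖ : M)) ^ k *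
        ((Ideal.absNorm (Qm ι J M m) : ℂ) ^ (-s) * (Ideal.absNorm F : ℂ) ^ s) *
        ((Ideal.absNorm D * a D)⁻¹ * (Ideal.absNorm D : ℂ) ^ s) *
        ((1 - l * (a c * (Ideal.absNorm c : ℂ) ^ (-s))) *
          ∑' I, a I * (Ideal.absNorm I : ℂ) ^ (-s))) := by
  obtain ⟨D', e⟩ := Ideal.dvd_iff_le.2 hQ
  have Q0 := Q_ne (ι := ι) (J := J) (M := M) m
  have D0 : D' ≠ ⊥ := right_ne_zero_of_mul (e ▸ Q0)
  have G0 : D * F ≠ ⊥ := left_ne_zero_of_mul (e ▸ Q0)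
  have c0 : c ≠ ⊥ := fun e => sm.1.ne_zero (by rw [← sm.2.2.1, e, Ideal.absNorm_bot])
  have cp : c.IsPrime := Ideal.isPrime_of_irreducible_absNorm (sm.2.2.1 ▸ sm.1)
  have QD : Qm ι J M m ≤ D' := e ▸ Ideal.mul_le_right
  have cD : ¬ c ∣ D' := fun k => by
    have k1 : (3 : 𝓞 M) ∈ c := cp.mem_of_pow_mem m (Ideal.le_of_dvd k (QD (three_mem m)))
    have k2 : (l : 𝓞 M) ∈ c := sm.2.2.1 ▸ Ideal.absNorm_mem c
    obtain ⟨u, v, k3⟩ := (Nat.isCoprime_iff_coprime.2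
      ((Nat.coprime_primes sm.1 Nat.prime_three).2 sm.2.1)).map (Int.castRingHom (𝓞 M))
    refine cp.ne_top ((Ideal.eq_top_iff_one _).2 (k3 ▸ c.add_mem (c.mul_mem_left _ ?_)
      (c.mul_mem_left _ ?_)))
    · simpa using k2
    · simpa using k1
  have fD : f * F ⊔ D = ⊤ := by
    rw [sup_comm, Ideal.sup_mul_eq_of_coprime_left
      (top_unique (fQ.ge.trans (sup_le le_sup_right (hQ.trans (Ideal.mul_le_left.trans
        le_sup_left))))), DF]
  obtain ⟨d, d1, d2⟩ := crt fD 0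
  rw [sub_zero] at d2
  obtain ⟨d', hd⟩ := Ideal.dvd_span_singleton.2 d2
  have v := fun I (p : Cp f I) => (vi_iff (R := D * F) (hx I p)
    (Ideal.isCoprime_iff_sup_eq.2 (cop (b _).2 m))).trans
      (show _ ↔ D' ∣ I by rw [e, mul_comm I, mul_dvd_mul_iff_left G0])
  have t := fun I (p : Cp f I) => ht D d hQ d2 (Ideal.mul_le_right d1) _ (vi_x (hx I p) (b _).2)
  have n0 : ∀ I : Ideal (𝓞 M), I ≠ ⊥ → (Ideal.absNorm I : ℂ) ^ s ≠ 0 := fun I k => by
    simp [Ideal.absNorm_eq_zero_iff, k]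
  refine ((mul_right_injective₀ D0).hasSum_iff fun I hI => ?_).1
    (((hs_xi hB h c0 hs).mul_left _).congr_fun fun R => ?_)
  · split_ifs with p
    · rw [(t I p).1 fun k => hI (((v I p).1 k).imp fun _ => Eq.symm)]
      simp
    · rfl
  · rw [Function.comp_apply]
    split_ifs with p
    · obtain ⟨x', e1, e2⟩ := pt h f1 o hd d1 w1 w2 D0 (hc_ne h |>.2 ⟨(b _).1.1, by
        rw [Ideal.sup_mul_eq_of_coprime_left (b _).1.2]
        exact top_unique ((cop (b _).2 m).ge.trans (sup_le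
          ((hQ.trans Ideal.mul_le_right).trans le_sup_right) le_sup_left))⟩) (e ▸ hx _ p)
      have e3 : xi c l (D' * R) = xi c l R := by
        simp only [xi, (Ideal.prime_of_isPrime c0 cp).dvd_mul, cD, false_or]
      rw [(t _ p).2 x' ((v _ p).2 (dvd_mul_right _ _)) e1, mul_div_cancel_left₀ _ (by simp), e3,
        show ∀ u v w y z p t : ℂ, u * v * (w * y / z) / p * t = w * v / z * t * (u * y / p) from
          fun _ _ _ _ _ _ _ => by ring, e2]
      have k : ∀ I I' : Ideal (𝓞 M), (Ideal.absNorm (I * I') : ℂ) ^ (-s) =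
          (Ideal.absNorm I : ℂ) ^ (-s) * (Ideal.absNorm I' : ℂ) ^ (-s) := fun I I' => by
        rw [map_mul, Nat.cast_mul, Complex.natCast_mul_natCast_cpow]
      have := n0 _ (left_ne_zero_of_mul G0)
      have := n0 _ (right_ne_zero_of_mul G0)
      rw [e, k, k, k, Complex.cpow_neg (Ideal.absNorm D : ℂ), Complex.cpow_neg (Ideal.absNorm F : ℂ),
        mul_inv]
      field_simp
    · rw [show a R = 0 from not_not.1 fun k => p ?_]
      · simp
      have := (hc_ne h).1 k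
      exact ⟨mul_ne_zero D0 this.1, by
        rw [sup_comm, Ideal.sup_mul_eq_of_coprime_left
          (top_unique (fQ.ge.trans (sup_le_sup_left QD _))), sup_comm]
        exact top_unique (this.2.ge.trans (sup_le_sup_left Ideal.mul_le_left _))⟩

/-- the test function at `v` -/
def gv (S : Finset (Ideal (𝓞 M))) (ω : 𝓞 M → ℂ) (y : 𝓞 M) : ℂ :=
  if ∀ P ∈ S, y ∉ P then (ω y)⁻¹ else 0

variable {S : Finset (Ideal (𝓞 M))}

theorem gv_eq (hS : ∀ P ∈ S, P.IsMaximal) (o : Om F ω) (y : 𝓞 M) (z : ℂ) : gv S ω y * z =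
    ∑ T ∈ (S.filter fun P => ¬ P ∣ F).powerset,
      (-1) ^ T.card * if y ∈ ∏ P ∈ T, P then (ω y)⁻¹ * z else 0 := by
  have e := incl (S.filter fun P => ¬ P ∣ F) (fun P p => hS P (mem_filter.1 p).1) y
  have : gv S ω y = (if ∀ P ∈ S.filter fun P => ¬ P ∣ F, y ∉ P then 1 else 0) * (ω y)⁻¹ := by
    by_cases k : ω y = 0
    · simp [gv, k]
    · rw [gv, boole_mul]
      refine if_congr ⟨fun p P hP => p P (mem_filter.1 hP).1, fun p P hP n => ?_⟩ rfl rfl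
      by_cases t : P ∣ F
      · exact k ((o.zero y).2 fun e => (hS P hP).ne_top (top_unique (e.ge.trans
          (sup_le ((Ideal.span_singleton_le_iff_mem _).2 n) (Ideal.le_of_dvd t)))))
      · exact p P (mem_filter.2 ⟨hP, t⟩) n
  rw [this, e, sum_mul, sum_mul]
  simp only [mul_assoc, ite_mul, one_mul, zero_mul]

theorem sum_T (h : HC J k (f * F) a) (hS : ∀ P ∈ S, P.IsMaximal) :
    ∑ T ∈ (S.filter fun P => ¬ P ∣ F).powerset, (-1) ^ T.card *
      ((Ideal.absNorm (∏ P ∈ T, P) * a (∏ P ∈ T, P))⁻¹ * (Ideal.absNorm (∏ P ∈ T, P) : ℂ) ^ s) =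
      ∏ P ∈ S, (1 - (Ideal.absNorm P * a P)⁻¹ * (Ideal.absNorm P : ℂ) ^ s) := by
  rw [← prod_filter_of_ne (p := fun P => ¬ P ∣ F) fun P hP n t => n (by
    rw [(h.zero P).2 (.inr fun e => (hS P hP).ne_top (top_unique (e.ge.trans
      (sup_le le_rfl (Ideal.mul_le_right.trans (Ideal.le_of_dvd t))))))]
    simp)]
  simp only [sub_eq_add_neg, prod_one_add]
  refine sum_congr rfl fun T _ => ?_
  rw [prod_neg, prod_mul_distrib, prod_inv_distrib, prod_mul_distrib, map_prod, h.cm.prod,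
    Nat.cast_prod]
  congr 2
  induction T using Finset.induction_on with
  | empty => simp
  | insert P T n ih =>
    rw [prod_insert n, prod_insert n, ← ih (by
      simp_all [insert_subset_iff]), ← Nat.cast_prod, Complex.natCast_mul_natCast_cpow]

/-- **the value of the series** -/
theorem vz (hB : Base ι J Ω) (h : HC J k (f * F) a) (f1 : f ≠ ⊤) (sm : Sm c l) (oz : Om F ω)
    (o : ∀ y, y - 1 ∈ f → ω y = W J k a y) (w1 : ϖ - 1 ∈ f) (w2 : Ideal.span {ϖ} = F * q)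
    (ht : Ft ι J m F ω ϖ ψ y₀ τ r) (fQ : f ⊔ Qm ι J M m = ⊤)
    (hQ : Qm ι J M m ≤ Qm ι J M 1 * F) (hS : ∀ P ∈ S, P.IsMaximal ∧ Qm ι J M 1 ≤ P)
    {β : Type} {B : β → Ideal (𝓞 M)} {j : Ideal (𝓞 M) → β}
    {x : Ideal (𝓞 M) → M} (b : ∀ j, Cp f (B j) ∧ B j ⊔ Ideal.span {3} = ⊤)
    (hx : ∀ I, Cp f I → E f (x I) (I * B (j I)) (Qm ι J M m)) (hs : 2 < (k : ℝ) + 2 * s.re) :
    HasSum (fun I => if Cp f I then (a (B (j I)))⁻¹ * xi c l I *
      hv ι J ψ m (finrank K M) (fun i => y₀ * r i) (fun i => gv S ω (r i)) (x I) /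
        J (Algebra.norm K (x I)) ^ k * (Ideal.absNorm I : ℂ) ^ (-s) else 0)
      (τ * a q * J (Algebra.norm K (ϖ : M)) ^ k *
        ((Ideal.absNorm (Qm ι J M m) : ℂ) ^ (-s) * (Ideal.absNorm F : ℂ) ^ s) *
        (∏ P ∈ S, (1 - (Ideal.absNorm P * a P)⁻¹ * (Ideal.absNorm P : ℂ) ^ s)) *
        (1 - l * (a c * (Ideal.absNorm c : ℂ) ^ (-s))) *
        ∑' I, a I * (Ideal.absNorm I : ℂ) ^ (-s)) := by
  have s1 := fun P p => (hS P p).1
  have := hasSum_sum (s := (S.filter fun P => ¬ P ∣ F).powerset) fun T hT =>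
    (hs_D (D := ∏ P ∈ T, P) hB h f1 sm o w1 w2 ht fQ (hQ.trans (Ideal.mul_mono_left ?_)) ?_ b hx
      hs).mul_left ((-1) ^ T.card)
  · rw [← sum_T h s1, mul_sum, sum_mul, sum_mul]
    refine (Eq.mp (congrArg (HasSum _) (sum_congr rfl fun T _ => by ring)) this).congr_fun
      fun I => ?_
    split_ifs with p
    · rw [hv, if_pos (vi_x (hx I p) (b _).2)]
      change _ * ((∑ i, gv S ω (r i) * ch ψ y₀ (x I) (r i)) / _) / _ * _ = _
      simp only [gv_eq s1 oz]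
      rw [sum_comm, sum_div, mul_sum, sum_div, sum_mul]
      refine sum_congr rfl fun T _ => ?_
      rw [← mul_sum]
      ring
    · simp
  · have t := fun P p => hS P (mem_filter.1 (mem_powerset.1 hT p)).1
    rw [Ideal.prod_eq_iInf_of_pairwise_isCoprime fun a ha b hb n =>
      have := (t a ha).1
      have := (t b hb).1
      Ideal.isCoprime_of_isMaximal n]
    exact le_iInf₂ fun P p => (t P p).2
  · refine Ideal.isCoprime_iff_sup_eq.1 (IsCoprime.prod_left fun P p => ?_)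
    obtain ⟨p1, p2⟩ := mem_filter.1 (mem_powerset.1 hT p)
    refine Ideal.isCoprime_iff_sup_eq.2 (not_not.1 fun n => p2 (Ideal.dvd_iff_le.2 ?_))
    exact le_sup_right.trans ((s1 P p1).eq_of_le n le_sup_left).ge

theorem gv_per (o : Om F ω) (hQ : Qm ι J M m ≤ F) (hS : ∀ P ∈ S, Qm ι J M m ≤ P) {y y' : 𝓞 M}
    (e : y - y' ∈ Qm ι J M m) : gv S ω y = gv S ω y' := by
  rw [gv, gv, o.per y y' (hQ e)]
  exact if_congr (forall₂_congr fun P p => not_congr (by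
    rw [← sub_add_cancel y y', P.add_mem_iff_right (hS P p e)])) rfl rfl

/-- the weight under the units -/
theorem iv (p : Ps ι J ψ) (d0 : ∀ x, Fd ι J 0 (y₀ * x) ↔ Vi ι J x) (h : HC J k (f * F) a)
    (oz : Om F ω) (o : ∀ y, y - 1 ∈ f → ω y = W J k a y) (hQ : Qm ι J M m ≤ F)
    (hS : ∀ P ∈ S, Qm ι J M m ≤ P) (hr : ∀ a, Ideal.Quotient.mk _ (r a) = a) (n : ℕ) :
    Iv ι J f ψ m n (fun i => y₀ * r i) k fun i => gv S ω (r i) := fun u hu x => by
  have e1 : ω u = J (Algebra.norm K ((u : 𝓞 M) : M)) ^ k := by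
    rw [o _ hu, W, Ideal.span_singleton_eq_top.2 u.isUnit, ← Ideal.one_eq_top, h.one, one_mul]
  have e2 : ω u ≠ 0 := left_ne_zero_of_mul_eq_one (by rw [← oz.mul, u.mul_inv, oz.one])
  unfold hv
  rw [mul_left_comm]
  by_cases t : Vi ι J (3 ^ m * x)
  swap
  · rw [if_neg t, if_neg (mt (vi_unit u _).1 t), mul_zero]
  rw [if_pos t, if_pos ((vi_unit u _).2 t), ← mul_div_assoc, ← e1, mul_sum]
  refine congrArg (· / _) (Eq.trans (sum_congr rfl fun i _ => ?_) (Equiv.sum_comp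
    (Units.map (Ideal.Quotient.mk (Qm ι J M m)).toMonoidHom u).mulLeft _))
  obtain ⟨z, z1, z2⟩ : ∃ z ∈ Qm ι J M m, r ((Units.map
      (Ideal.Quotient.mk (Qm ι J M m)).toMonoidHom u).mulLeft i) = u * r i + z :=
    ⟨_, Ideal.Quotient.eq.1 (by rw [hr, map_mul, hr]; rfl), (add_sub_cancel _ _).symm⟩
  have hq : ch ψ y₀ x z = 1 := (ch_triv p d0 _).2 (fun y hy => by
    have := Vi_mul t (mem_Q.1 hy)
    rwa [show 3 ^ m * x * ((y : M) / 3 ^ m) = x * y by field_simp] at this) z z1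
  change gv S ω (r i) * ch ψ y₀ _ (r i) = _ * (gv S ω (r _) * ch ψ y₀ x (r _))
  rw [z2, ch_add, hq, mul_one, gv_per oz hQ hS (y := u * r i + z) (y' := u * r i)
    (by simpa using z1), ← mul_assoc]
  congr 1
  · simp only [gv, oz.mul, Ideal.unit_mul_mem_iff_mem _ u.isUnit]
    split_ifs
    · field_simp
    · simp
  · simp only [ch]
    push_cast
    ring_nf

end Vale.Agent.P014Y.C.Cg
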